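import Vale.Agent.P272.MathlibUsed
import Vale.Agent.P272.Stmt
attribute [-instance] ProperSMul.toContinuousSMul IsTopologicalTorsor.toContinuousSMul IdemSemiring.toCanonicallyOrderedAdd IdemSemiring.toMulLeftMono IdemSemiring.toMulRightMono AddQuantale.instAddLeftMono AddQuantale.instAddRightMono Quantale.instMulLeftMono Quantale.instMulRightMono FiniteDimensional.rclike_to_real IsScalarTower.complexToReal FiniteDimensional.complexToReal

set_option linter.all false

section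

section

open scoped Manifold ContDiff Topology
open MeasureTheory Set

noncomputable section

namespace Vale.Agent.P272

/-- Complex Euclidean space of dimension `n`. -/
abbrev Cn (n : ℕ) := EuclideanSpace ℂ (Fin n)

/-- Complex Jacobian determinant at `z` of a map of `Cn n` to itself. -/
def jac {n : ℕ} (f : Cn n → Cn n) (z : Cn n) : ℂ := (fderiv ℂ f z).det

/-- Four times the Levi form (complex Hessian) of a real function:
`D²f(ξ,ξ) + D²f(iξ,iξ)`. -/
def levi {n : ℕ} (f : Cn n → ℝ) (z ξ : Cn n) : ℝ :=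
  fderiv ℝ (fderiv ℝ f) z ξ ξ + fderiv ℝ (fderiv ℝ f) z (Complex.I • ξ) (Complex.I • ξ)

/-- A smooth strictly plurisubharmonic function on a complex manifold. -/
def StrictlyPSH (n : ℕ) {M : Type*} [TopologicalSpace M] [ChartedSpace (Cn n) M]
    (ρ : M → ℝ) : Prop :=
  ∀ e ∈ atlas (Cn n) M, ContDiffOn ℝ ∞ (ρ ∘ e.symm) e.target ∧
    ∀ z ∈ e.target, ∀ ξ : Cn n, ξ ≠ 0 → 0 < levi (ρ ∘ e.symm) z ξ

/-- A holomorphic `m`-canonical form on `M` (a holomorphic section of the `m`-th power of the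
canonical bundle), given by its coefficient functions in the charts of `M`. -/
structure PluriForm (n m : ℕ) (M : Type*) [TopologicalSpace M] [ChartedSpace (Cn n) M] where
  coeff : OpenPartialHomeomorph M (Cn n) → Cn n → ℂ
  holo : ∀ e ∈ atlas (Cn n) M, DifferentiableOn ℂ (coeff e) e.target
  change : ∀ e ∈ atlas (Cn n) M, ∀ e' ∈ atlas (Cn n) M, ∀ x ∈ e.source ∩ e'.source,
    coeff e (e x) = coeff e' (e' x) * jac (e' ∘ e.symm) (e x) ^ m

/-- A holomorphic covering map: a surjective topological covering map that is a local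
biholomorphism. -/
structure HolCovering (n : ℕ) {D X : Type*} [TopologicalSpace D] [ChartedSpace (Cn n) D]
    [TopologicalSpace X] [ChartedSpace (Cn n) X] (p : D → X) : Prop where
  covering : IsCoveringMap p
  surjective : Function.Surjective p
  localBihol : IsLocalDiffeomorph 𝓘(ℂ, Cn n) 𝓘(ℂ, Cn n) ω p

section
variable {n m : ℕ} {D X : Type*} [TopologicalSpace D] [ChartedSpace (Cn n) D]
  [TopologicalSpace X] [ChartedSpace (Cn n) X]

/-- The coefficient at `z : D` of a form `s` on `D` with respect to the local coordinate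
`e ∘ p` of `D` obtained by lifting a chart `e` of `X` through `p : D → X`. -/
def liftCoeff (s : PluriForm n m D) (p : D → X) (e : OpenPartialHomeomorph X (Cn n)) (z : D) :
    ℂ :=
  s.coeff (chartAt (Cn n) z) (chartAt (Cn n) z z) /
    jac (e ∘ p ∘ (chartAt (Cn n) z).symm) (chartAt (Cn n) z z) ^ m

/-- Square integrability of an `m`-canonical form on `D` with respect to the metric lifted from
the compact manifold `X` through the covering `p : D → X`: over each compact set of each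
coordinate chart of `X` the sum over the fibres of `p` of the squared coefficients is
integrable. -/
def SquareIntegrable (s : PluriForm n m D) (p : D → X) : Prop :=
  ∀ e ∈ atlas (Cn n) X, ∀ K ⊆ e.target, IsCompact K →
    ∫⁻ w in K, ∑' z : p ⁻¹' {e.symm w}, ‖liftCoeff s p e z‖ₑ ^ 2 < ⊤

end

/-- The canonical bundle of `X` is positive: there is a smooth Hermitian metric on it, of
local weights `φ e`, whose curvature form is positive. -/
def CanonicalPositive (n : ℕ) (X : Type*) [TopologicalSpace X] [ChartedSpace (Cn n) X] : Prop :=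
  ∃ φ : OpenPartialHomeomorph X (Cn n) → Cn n → ℝ,
    (∀ e ∈ atlas (Cn n) X, ContDiffOn ℝ ∞ (φ e) e.target) ∧
    (∀ e ∈ atlas (Cn n) X, ∀ e' ∈ atlas (Cn n) X, ∀ x ∈ e.source ∩ e'.source,
      φ e (e x) = φ e' (e' x) + Real.log (‖jac (e' ∘ e.symm) (e x)‖ ^ 2)) ∧
    (∀ e ∈ atlas (Cn n) X, ∀ z ∈ e.target, ∀ ξ : Cn n, ξ ≠ 0 → 0 < levi (φ e) z ξ)

end Vale.Agent.P272
end
end
end

section

section

open scoped Manifold ContDiff Topology
open MeasureTheory Set

noncomputable section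

namespace Vale.Agent.P272

variable {n : ℕ}

lemma jac_congr {f g : Cn n → Cn n} {a : Cn n} (h : f =ᶠ[𝓝 a] g) : jac f a = jac g a := by
  unfold jac
  rw [h.fderiv_eq]

lemma jac_comp {f g : Cn n → Cn n} {a : Cn n} (hf : DifferentiableAt ℂ f (g a))
    (hg : DifferentiableAt ℂ g a) : jac (f ∘ g) a = jac f (g a) * jac g a := by
  unfold jac
  rw [fderiv_comp a hf hg]
  simp only [ContinuousLinearMap.det, ContinuousLinearMap.toLinearMap_comp]
  exact LinearMap.det_comp _ _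

lemma jac_id (a : Cn n) : jac (fun z : Cn n => z) a = 1 := by
  unfold jac
  rw [fderiv_fun_id]
  simp [ContinuousLinearMap.det]

lemma jac_id' (a : Cn n) : jac (id : Cn n → Cn n) a = 1 := jac_id a

lemma clm_det_eq (A : Cn n →L[ℂ] Cn n) :
    A.det = (Matrix.of fun i j : Fin n =>
      (A (EuclideanSpace.single j (1 : ℂ))) i).det := by
  have := LinearMap.det_toMatrix (EuclideanSpace.basisFun (Fin n) ℂ).toBasis A.toLinearMap
  rw [ContinuousLinearMap.det, ← this]
  congr 1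

lemma differentiableAt_jac {f : Cn n → Cn n} {a : Cn n} (hf : ContDiffAt ℂ ω f a) :
    DifferentiableAt ℂ (jac f) a := by
  have h1 : DifferentiableAt ℂ (fderiv ℂ f) a := by
    have h2 : ContDiffAt ℂ 1 (fderiv ℂ f) a :=
      hf.fderiv_right (m := 1) (by
        exact le_top)
    exact h2.differentiableAt (by norm_num)
  have h3 : jac f = fun z => ∑ σ : Equiv.Perm (Fin n), (Equiv.Perm.sign σ : ℂ) *
      ∏ i, (fderiv ℂ f z (EuclideanSpace.single i (1 : ℂ))) (σ i) := by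
    funext z
    unfold jac
    rw [clm_det_eq, Matrix.det_apply']
    rfl
  rw [h3]
  have h4 : ∀ i j : Fin n, DifferentiableAt ℂ
      (fun z => (fderiv ℂ f z (EuclideanSpace.single i (1 : ℂ))) j) a := by
    intro i j
    have h5 : DifferentiableAt ℂ (fun z => fderiv ℂ f z (EuclideanSpace.single i (1 : ℂ))) a :=
      h1.clm_apply (differentiableAt_const _)
    exact ((EuclideanSpace.proj j : Cn n →L[ℂ] ℂ).differentiableAt (x := _)).comp a h5
  refine DifferentiableAt.fun_sum fun σ _ => ?_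
  refine (differentiableAt_const _).mul ?_
  exact (HasFDerivAt.finsetProd fun i _ => (h4 i (σ i)).hasFDerivAt).differentiableAt

end Vale.Agent.P272
end
end
end

section

section

open scoped Manifold ContDiff Topology
open MeasureTheory Set Filter

noncomputable section

namespace Vale.Agent.P272

variable {n : ℕ}

section basic

variable {F : Type*} [NormedAddCommGroup F] [NormedSpace ℝ F]
variable {G : Type*} [NormedAddCommGroup G] [NormedSpace ℝ G]

lemma contDiffAt_fderiv {f : F → G} {z : F} (hf : ContDiffAt ℝ 2 f z) :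
    ContDiffAt ℝ 1 (fderiv ℝ f) z :=
  hf.fderiv_right (by norm_num)

lemma differentiableAt_fderiv {f : F → G} {z : F} (hf : ContDiffAt ℝ 2 f z) :
    DifferentiableAt ℝ (fderiv ℝ f) z :=
  (contDiffAt_fderiv hf).differentiableAt (by norm_num)

lemma differentiableAt_fderiv_apply {f : F → G} {z : F} (hf : ContDiffAt ℝ 2 f z) (η : F) :
    DifferentiableAt ℝ (fun w => fderiv ℝ f w η) z :=
  (differentiableAt_fderiv hf).clm_apply (differentiableAt_const _)

lemma eventually_differentiableAt {f : F → G} {z : F} (hf : ContDiffAt ℝ 2 f z) :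
    ∀ᶠ w in 𝓝 z, DifferentiableAt ℝ f w := by
  filter_upwards [hf.eventually (by simp)] with w hw
  exact hw.differentiableAt (by norm_num)

lemma dd_eq {f : F → G} {z : F} (hf : ContDiffAt ℝ 2 f z) (ξ η : F) :
    fderiv ℝ (fderiv ℝ f) z ξ η = fderiv ℝ (fun w => fderiv ℝ f w η) z ξ := by
  rw [fderiv_clm_apply (differentiableAt_fderiv hf) (differentiableAt_const _)]
  simp

lemma fderiv_fderiv_congr {f g : F → G} {z : F} (h : f =ᶠ[𝓝 z] g) :
    fderiv ℝ (fderiv ℝ f) z = fderiv ℝ (fderiv ℝ g) z :=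
  (h.fderiv).fderiv_eq

/-- second derivative of a product with a scalar function -/
lemma dd_smul {f : F → ℝ} {g : F → G} {z : F} (hf : ContDiffAt ℝ 2 f z)
    (hg : ContDiffAt ℝ 2 g z) (ξ η : F) :
    fderiv ℝ (fderiv ℝ (fun w => f w • g w)) z ξ η =
      f z • fderiv ℝ (fderiv ℝ g) z ξ η + fderiv ℝ f z ξ • fderiv ℝ g z η +
      fderiv ℝ (fderiv ℝ f) z ξ η • g z + fderiv ℝ f z η • fderiv ℝ g z ξ := by
  have h0 : ContDiffAt ℝ 2 (fun w => f w • g w) z := hf.smul hg
  rw [dd_eq h0, dd_eq hf, dd_eq hg]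
  have h1 : (fun w => fderiv ℝ (fun w => f w • g w) w η) =ᶠ[𝓝 z]
      fun w => f w • fderiv ℝ g w η + (fderiv ℝ f w η) • (g w) := by
    filter_upwards [eventually_differentiableAt hf, eventually_differentiableAt hg] with w h1 h2
    rw [fderiv_fun_smul h1 h2]
    simp
  rw [h1.fderiv_eq]
  have hf1 := hf.differentiableAt (by norm_num)
  have hg1 := hg.differentiableAt (by norm_num)
  have hf2 := differentiableAt_fderiv_apply hf η
  have hg2 := differentiableAt_fderiv_apply hg η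
  have hA : DifferentiableAt ℝ (fun w => f w • fderiv ℝ g w η) z := hf1.smul hg2
  have hB : DifferentiableAt ℝ (fun w => (fderiv ℝ f w η) • g w) z := hf2.smul hg1
  rw [fderiv_fun_add hA hB, fderiv_fun_smul hf1 hg2, fderiv_fun_smul hf2 hg1]
  simp
  abel

lemma dd_add {f g : F → G} {z : F} (hf : ContDiffAt ℝ 2 f z)
    (hg : ContDiffAt ℝ 2 g z) (ξ η : F) :
    fderiv ℝ (fderiv ℝ (fun w => f w + g w)) z ξ η =
      fderiv ℝ (fderiv ℝ f) z ξ η + fderiv ℝ (fderiv ℝ g) z ξ η := by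
  have h1 : fderiv ℝ (fun w => f w + g w) =ᶠ[𝓝 z] fun w => fderiv ℝ f w + fderiv ℝ g w := by
    filter_upwards [eventually_differentiableAt hf, eventually_differentiableAt hg] with w h1 h2
    exact fderiv_fun_add h1 h2
  rw [h1.fderiv_eq, fderiv_fun_add (differentiableAt_fderiv hf) (differentiableAt_fderiv hg)]
  simp

lemma dd_const_mul {f : F → ℝ} {z : F} (c : ℝ) (hf : ContDiffAt ℝ 2 f z) (ξ η : F) :
    fderiv ℝ (fderiv ℝ (fun w => c * f w)) z ξ η = c * fderiv ℝ (fderiv ℝ f) z ξ η := by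
  have h1 : fderiv ℝ (fun w => c * f w) =ᶠ[𝓝 z] fun w => c • fderiv ℝ f w := by
    filter_upwards [eventually_differentiableAt hf] with w h1
    exact fderiv_const_mul h1 c
  rw [h1.fderiv_eq, fderiv_fun_const_smul (differentiableAt_fderiv hf)]
  simp

/-- second derivative of a composition with a function of one real variable -/
lemma dd_comp_real {h : ℝ → ℝ} {f : F → ℝ} {z : F} (hh : ContDiffAt ℝ 2 h (f z))
    (hf : ContDiffAt ℝ 2 f z) (ξ η : F) :
    fderiv ℝ (fderiv ℝ (fun w => h (f w))) z ξ η =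
      deriv h (f z) * fderiv ℝ (fderiv ℝ f) z ξ η +
      deriv (deriv h) (f z) * (fderiv ℝ f z ξ * fderiv ℝ f z η) := by
  have hcomp : ContDiffAt ℝ 2 (fun w => h (f w)) z := hh.comp z hf
  rw [dd_eq hcomp, dd_eq hf]
  have hev : ∀ᶠ w in 𝓝 z, DifferentiableAt ℝ h (f w) :=
    hf.continuousAt.eventually (eventually_differentiableAt hh)
  have h1 : (fun w => fderiv ℝ (fun w => h (f w)) w η) =ᶠ[𝓝 z]
      fun w => deriv h (f w) * fderiv ℝ f w η := by
    filter_upwards [hev, eventually_differentiableAt hf] with w h1 h2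
    have := (h1.hasDerivAt.comp_hasFDerivAt w h2.hasFDerivAt).fderiv
    have e : fderiv ℝ (fun w => h (f w)) w = deriv h (f w) • fderiv ℝ f w := this
    rw [e]; simp
  rw [h1.fderiv_eq]
  have hdh : ContDiffAt ℝ 1 (deriv h) (f z) := by
    have := contDiffAt_fderiv hh
    have e : deriv h = fun t => fderiv ℝ h t 1 := by
      ext t; simp
    rw [e]
    exact this.clm_apply contDiffAt_const
  have hdh' : DifferentiableAt ℝ (deriv h) (f z) := hdh.differentiableAt (by norm_num)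
  have hf1 := hf.differentiableAt (by norm_num)
  have hc : HasFDerivAt (fun w => deriv h (f w)) (deriv (deriv h) (f z) • fderiv ℝ f z) z :=
    hdh'.hasDerivAt.comp_hasFDerivAt z hf1.hasFDerivAt
  rw [fderiv_fun_mul hc.differentiableAt (differentiableAt_fderiv_apply hf η), hc.fderiv]
  simp
  ring

/-- second derivative of a composition -/
lemma dd_comp {K : Type*} [NormedAddCommGroup K] [NormedSpace ℝ K] {f : G → K} {T : F → G} {z : F}
    (hf : ContDiffAt ℝ 2 f (T z)) (hT : ContDiffAt ℝ 2 T z) (ξ η : F) :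
    fderiv ℝ (fderiv ℝ (fun w => f (T w))) z ξ η =
      fderiv ℝ (fderiv ℝ f) (T z) (fderiv ℝ T z ξ) (fderiv ℝ T z η) +
      fderiv ℝ f (T z) (fderiv ℝ (fderiv ℝ T) z ξ η) := by
  have hcomp : ContDiffAt ℝ 2 (fun w => f (T w)) z := hf.comp z hT
  rw [dd_eq hcomp, dd_eq hT]
  have hev : ∀ᶠ w in 𝓝 z, DifferentiableAt ℝ f (T w) :=
    hT.continuousAt.eventually (eventually_differentiableAt hf)
  have h1 : (fun w => fderiv ℝ (fun w => f (T w)) w η) =ᶠ[𝓝 z]
      fun w => fderiv ℝ f (T w) (fderiv ℝ T w η) := by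
    filter_upwards [hev, eventually_differentiableAt hT] with w h1 h2
    have := (h1.hasFDerivAt.comp w h2.hasFDerivAt).fderiv
    have e : fderiv ℝ (fun w => f (T w)) w = (fderiv ℝ f (T w)).comp (fderiv ℝ T w) := this
    rw [e]; simp
  rw [h1.fderiv_eq]
  have hc : HasFDerivAt (fun w => fderiv ℝ f (T w))
      ((fderiv ℝ (fderiv ℝ f) (T z)).comp (fderiv ℝ T z)) z :=
    (differentiableAt_fderiv hf).hasFDerivAt.comp z (hT.differentiableAt (by norm_num)).hasFDerivAt
  rw [fderiv_clm_apply hc.differentiableAt (differentiableAt_fderiv_apply hT η), hc.fderiv]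
  simp [add_comm]

/-- The second derivative of a function holomorphic near `z` : Cauchy-Riemann at second order. -/
lemma dd_holo {F : Type*} [NormedAddCommGroup F] [NormedSpace ℂ F]
    {G : Type*} [NormedAddCommGroup G] [NormedSpace ℂ G] {T : F → G} {z : F}
    (hT : ContDiffAt ℝ 2 T z)
    (hol : ∀ᶠ w in 𝓝 z, ∀ η, fderiv ℝ T w (Complex.I • η) = Complex.I • fderiv ℝ T w η) (ξ : F) :
    fderiv ℝ (fderiv ℝ T) z (Complex.I • ξ) (Complex.I • ξ) =
      - fderiv ℝ (fderiv ℝ T) z ξ ξ := by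
  have key : ∀ ζ η : F, fderiv ℝ (fderiv ℝ T) z ζ (Complex.I • η) =
      Complex.I • fderiv ℝ (fderiv ℝ T) z ζ η := by
    intro ζ η
    rw [dd_eq hT, dd_eq hT]
    have h1 : (fun w => fderiv ℝ T w (Complex.I • η)) =ᶠ[𝓝 z]
        fun w => Complex.I • fderiv ℝ T w η := by
      filter_upwards [hol] with w hw
      exact hw η
    rw [h1.fderiv_eq, fderiv_fun_const_smul (differentiableAt_fderiv_apply hT η)]
    simp
  have symm : IsSymmSndFDerivAt ℝ T z := hT.isSymmSndFDerivAt (by simp)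
  rw [key, symm.eq, key, smul_smul, Complex.I_mul_I]
  simp

/-- complex differentiable maps satisfy the Cauchy-Riemann equations -/
lemma cr_of_differentiableAt {F : Type*} [NormedAddCommGroup F] [NormedSpace ℂ F]
    {G : Type*} [NormedAddCommGroup G] [NormedSpace ℂ G] {T : F → G} {w : F}
    (h : DifferentiableAt ℂ T w) (η : F) :
    fderiv ℝ T w (Complex.I • η) = Complex.I • fderiv ℝ T w η := by
  have : fderiv ℝ T w = (fderiv ℂ T w).restrictScalars ℝ :=
    (h.hasFDerivAt.restrictScalars ℝ).fderiv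
  rw [this]
  simp

end basic

section levi

variable {f g : Cn n → ℝ} {z ξ : Cn n}

lemma levi_congr (h : f =ᶠ[𝓝 z] g) : levi f z ξ = levi g z ξ := by
  unfold levi
  rw [fderiv_fderiv_congr h]

lemma levi_mul (hf : ContDiffAt ℝ 2 f z) (hg : ContDiffAt ℝ 2 g z) :
    levi (fun w => f w * g w) z ξ = f z * levi g z ξ + g z * levi f z ξ +
      2 * (fderiv ℝ f z ξ * fderiv ℝ g z ξ +
        fderiv ℝ f z (Complex.I • ξ) * fderiv ℝ g z (Complex.I • ξ)) := by
  unfold levi
  have := dd_smul hf hg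
  simp only [smul_eq_mul] at this
  rw [this, this]
  ring

lemma levi_add (hf : ContDiffAt ℝ 2 f z) (hg : ContDiffAt ℝ 2 g z) :
    levi (fun w => f w + g w) z ξ = levi f z ξ + levi g z ξ := by
  unfold levi
  rw [dd_add hf hg, dd_add hf hg]
  ring

lemma levi_const_mul (c : ℝ) (hf : ContDiffAt ℝ 2 f z) :
    levi (fun w => c * f w) z ξ = c * levi f z ξ := by
  unfold levi
  rw [dd_const_mul c hf, dd_const_mul c hf]
  ring

lemma levi_comp_real {h : ℝ → ℝ} (hh : ContDiffAt ℝ 2 h (f z)) (hf : ContDiffAt ℝ 2 f z) :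
    levi (fun w => h (f w)) z ξ = deriv h (f z) * levi f z ξ +
      deriv (deriv h) (f z) * (fderiv ℝ f z ξ ^ 2 + fderiv ℝ f z (Complex.I • ξ) ^ 2) := by
  unfold levi
  rw [dd_comp_real hh hf, dd_comp_real hh hf]
  ring

lemma levi_const (c : ℝ) : levi (fun _ : Cn n => c) z ξ = 0 := by
  unfold levi
  simp

lemma levi_sum {ι : Type*} (s : Finset ι) {f : ι → Cn n → ℝ}
    (hf : ∀ i ∈ s, ContDiffAt ℝ 2 (f i) z) :
    levi (fun w => ∑ i ∈ s, f i w) z ξ = ∑ i ∈ s, levi (f i) z ξ := by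
  classical
  induction s using Finset.induction_on with
  | empty => simpa using levi_const (n := n) (z := z) (ξ := ξ) 0
  | insert a s ha ih =>
    simp only [Finset.sum_insert ha]
    rw [levi_add (hf a (Finset.mem_insert_self _ _))
      (ContDiffAt.sum fun i hi => hf i (Finset.mem_insert_of_mem hi)),
      ih fun i hi => hf i (Finset.mem_insert_of_mem hi)]

lemma levi_comp_holo {T : Cn n → Cn n} (hf : ContDiffAt ℝ 2 f (T z)) (hT : ContDiffAt ℝ 2 T z)
    (hol : ∀ᶠ w in 𝓝 z, ∀ η, fderiv ℝ T w (Complex.I • η) = Complex.I • fderiv ℝ T w η) :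
    levi (fun w => f (T w)) z ξ = levi f (T z) (fderiv ℝ T z ξ) := by
  unfold levi
  rw [dd_comp hf hT, dd_comp hf hT, dd_holo hT hol, hol.self_of_nhds ξ, map_neg]
  ring

end levi

section hilbert

variable {H : Type*} [NormedAddCommGroup H] [InnerProductSpace ℂ H]
variable {z ξ : Cn n}

/-- `G` is (real) smooth of order two and satisfies the Cauchy-Riemann equations near `z`. -/
structure HolAt (G : Cn n → H) (z : Cn n) : Prop where
  smooth : ContDiffAt ℝ 2 G z
  cr : ∀ᶠ w in 𝓝 z, ∀ η, fderiv ℝ G w (Complex.I • η) = Complex.I • fderiv ℝ G w η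

lemma contDiffAt_norm_sq {k : WithTop ℕ∞} {G : Cn n → H} {w : Cn n} (h : ContDiffAt ℝ k G w) :
    ContDiffAt ℝ k (fun w => ‖G w‖ ^ 2) w := by
  let _ : InnerProductSpace ℝ H := InnerProductSpace.rclikeToReal ℂ H
  exact h.norm_sq ℝ

lemma fderiv_norm_sq {G : Cn n → H} {w : Cn n} (h : DifferentiableAt ℝ G w) (η : Cn n) :
    fderiv ℝ (fun w => ‖G w‖ ^ 2) w η = 2 * (inner ℂ (G w) (fderiv ℝ G w η)).re := by
  let _ : InnerProductSpace ℝ H := InnerProductSpace.rclikeToReal ℂ H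
  have := (h.hasFDerivAt.norm_sq).fderiv
  rw [this]
  simp
  rfl

lemma levi_norm_sq {G : Cn n → H} (h : HolAt G z) :
    levi (fun w => ‖G w‖ ^ 2) z ξ = 4 * ‖fderiv ℝ G z ξ‖ ^ 2 := by
  let _ : InnerProductSpace ℝ H := InnerProductSpace.rclikeToReal ℂ H
  have hN : ContDiffAt ℝ 2 (fun w => ‖G w‖ ^ 2) z := contDiffAt_norm_sq h.smooth
  have key : ∀ ζ η : Cn n, fderiv ℝ (fderiv ℝ (fun w => ‖G w‖ ^ 2)) z ζ η =
      2 * ((inner ℂ (fderiv ℝ G z ζ) (fderiv ℝ G z η)).re +
        (inner ℂ (G z) (fderiv ℝ (fderiv ℝ G) z ζ η)).re) := by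
    intro ζ η
    rw [dd_eq hN, dd_eq h.smooth]
    have h1 : (fun w => fderiv ℝ (fun w => ‖G w‖ ^ 2) w η) =ᶠ[𝓝 z]
        fun w => 2 * inner ℝ (G w) (fderiv ℝ G w η) := by
      filter_upwards [eventually_differentiableAt h.smooth] with w hw
      rw [fderiv_norm_sq hw, real_inner_eq_re_inner ℂ]
      rfl
    have d1 := h.smooth.differentiableAt (by norm_num : (2 : WithTop ℕ∞) ≠ 0)
    have d2 := differentiableAt_fderiv_apply h.smooth η
    rw [h1.fderiv_eq, fderiv_const_mul (d1.inner ℝ d2)]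
    simp only [smul_apply, smul_eq_mul]
    rw [fderiv_inner_apply ℝ d1 d2]
    rw [real_inner_eq_re_inner ℂ, real_inner_eq_re_inner ℂ]
    simp
    ring
  unfold levi
  rw [key, key, dd_holo h.smooth h.cr, h.cr.self_of_nhds ξ]
  have e : (inner ℂ (fderiv ℝ G z ξ) (fderiv ℝ G z ξ)).re = ‖fderiv ℝ G z ξ‖ ^ 2 :=
    inner_self_eq_norm_sq (𝕜 := ℂ) _
  have e2 : inner ℂ (Complex.I • fderiv ℝ G z ξ) (Complex.I • fderiv ℝ G z ξ) =
      inner ℂ (fderiv ℝ G z ξ) (fderiv ℝ G z ξ) := by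
    rw [inner_smul_left, inner_smul_right, ← mul_assoc]
    simp
  rw [e2, e, inner_neg_right, Complex.neg_re]
  ring

/-- The coefficient `⟨G, ∂_ξ G⟩ / ‖G‖²`. -/
def logder (G : Cn n → H) (z ξ : Cn n) : ℂ :=
  inner ℂ (G z) (fderiv ℝ G z ξ) / (‖G z‖ : ℂ) ^ 2

lemma norm_sub_logder {G : Cn n → H} (h0 : G z ≠ 0) :
    ‖fderiv ℝ G z ξ - logder G z ξ • G z‖ ^ 2 =
      ‖fderiv ℝ G z ξ‖ ^ 2 - ‖inner ℂ (G z) (fderiv ℝ G z ξ)‖ ^ 2 / ‖G z‖ ^ 2 := by
  have hpos : (0 : ℝ) < ‖G z‖ := norm_pos_iff.mpr h0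
  have hne : (‖G z‖ : ℂ) ≠ 0 := by exact_mod_cast hpos.ne'
  rw [@norm_sub_sq ℂ, inner_smul_right, norm_smul, logder]
  set a := inner ℂ (G z) (fderiv ℝ G z ξ) with ha
  have hconj : inner ℂ (fderiv ℝ G z ξ) (G z) = (starRingEnd ℂ) a := by
    rw [ha, inner_conj_symm]
  rw [hconj]
  have h1 : a / (‖G z‖ : ℂ) ^ 2 * (starRingEnd ℂ) a = ((‖a‖ ^ 2 / ‖G z‖ ^ 2 : ℝ) : ℂ) := by
    rw [div_mul_eq_mul_div, Complex.mul_conj, Complex.normSq_eq_norm_sq]
    push_cast
    rfl
  rw [h1]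
  have h2 : ‖a / (‖G z‖ : ℂ) ^ 2‖ = ‖a‖ / ‖G z‖ ^ 2 := by
    rw [norm_div, norm_pow, Complex.norm_real, norm_norm]
  rw [h2]
  have h3 : RCLike.re (((‖a‖ ^ 2 / ‖G z‖ ^ 2 : ℝ) : ℂ)) = ‖a‖ ^ 2 / ‖G z‖ ^ 2 := Complex.ofReal_re _
  rw [h3]
  field_simp
  ring

lemma levi_log_norm_sq {G : Cn n → H} (h : HolAt G z) (h0 : G z ≠ 0) :
    levi (fun w => Real.log (‖G w‖ ^ 2)) z ξ =
      4 * ‖fderiv ℝ G z ξ - logder G z ξ • G z‖ ^ 2 / ‖G z‖ ^ 2 := by
  have hpos : (0 : ℝ) < ‖G z‖ ^ 2 := by positivity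
  have hN := contDiffAt_norm_sq h.smooth
  have d1 := h.smooth.differentiableAt (by norm_num : (2 : WithTop ℕ∞) ≠ 0)
  rw [levi_comp_real (Real.contDiffAt_log.mpr hpos.ne') hN, levi_norm_sq h,
    fderiv_norm_sq d1, fderiv_norm_sq d1, h.cr.self_of_nhds ξ, inner_smul_right,
    norm_sub_logder h0]
  have e1 : deriv Real.log = fun x => x⁻¹ := by
    ext x; exact Real.deriv_log x
  have e2 : deriv (deriv Real.log) (‖G z‖ ^ 2) = - ((‖G z‖ ^ 2) ^ 2)⁻¹ := by
    rw [e1, deriv_inv]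
  rw [e2, e1]
  set a := inner ℂ (G z) (fderiv ℝ G z ξ)
  have e3 : (Complex.I * a).re = - a.im := by simp
  have e4 : ‖a‖ ^ 2 = a.re ^ 2 + a.im ^ 2 := by
    rw [← Complex.normSq_eq_norm_sq, Complex.normSq_apply]; ring
  rw [e3, e4]
  field_simp
  ring

lemma contDiffAt_log_norm_sq {G : Cn n → H} (h : HolAt G z) (h0 : G z ≠ 0) :
    ContDiffAt ℝ 2 (fun w => Real.log (‖G w‖ ^ 2)) z := by
  have hpos : (0 : ℝ) < ‖G z‖ ^ 2 := by positivity
  exact (contDiffAt_norm_sq h.smooth).log hpos.ne'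

lemma fderiv_log_norm_sq {G : Cn n → H} (h : HolAt G z) (h0 : G z ≠ 0) :
    fderiv ℝ (fun w => Real.log (‖G w‖ ^ 2)) z ξ = 2 * (logder G z ξ).re := by
  have hpos : (0 : ℝ) < ‖G z‖ ^ 2 := by positivity
  have d1 := h.smooth.differentiableAt (by norm_num : (2 : WithTop ℕ∞) ≠ 0)
  have hN := (contDiffAt_norm_sq h.smooth).differentiableAt (by norm_num : (2 : WithTop ℕ∞) ≠ 0)
  rw [fderiv.log hN hpos.ne']
  simp only [smul_apply, smul_eq_mul]
  rw [fderiv_norm_sq d1, logder]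
  rw [show ((‖G z‖ : ℂ) ^ 2) = ((‖G z‖ ^ 2 : ℝ) : ℂ) by push_cast; rfl, Complex.div_ofReal_re]
  field_simp

lemma logder_I {G : Cn n → H} (h : HolAt G z) :
    logder G z (Complex.I • ξ) = Complex.I * logder G z ξ := by
  unfold logder
  rw [h.cr.self_of_nhds ξ, inner_smul_right, mul_div_assoc]

lemma logder_of_eq {G : Cn n → H} (h0 : G z ≠ 0) {c : ℂ} (hc : fderiv ℝ G z ξ = c • G z) :
    logder G z ξ = c := by
  unfold logder
  have hpos : (0 : ℝ) < ‖G z‖ := norm_pos_iff.mpr h0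
  have hne : (‖G z‖ : ℂ) ≠ 0 := by exact_mod_cast hpos.ne'
  rw [hc, inner_smul_right, inner_self_eq_norm_sq_to_K]
  field_simp
  simp

lemma scalar_fderiv_eq_logder {g : Cn n → ℂ} (h0 : g z ≠ 0) :
    fderiv ℝ g z ξ = logder g z ξ • g z := by
  unfold logder
  have h1 : ((‖g z‖ : ℂ) ^ 2) = g z * (starRingEnd ℂ) (g z) := by
    rw [Complex.mul_conj, Complex.normSq_eq_norm_sq]; push_cast; rfl
  rw [h1, smul_eq_mul]
  have h2 : inner ℂ (g z) (fderiv ℝ g z ξ) = (fderiv ℝ g z ξ) * (starRingEnd ℂ) (g z) := rfl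
  rw [h2]
  have h3 : (starRingEnd ℂ) (g z) ≠ 0 := by simpa using h0
  field_simp

lemma levi_log_scalar {g : Cn n → ℂ} (h : HolAt g z) (h0 : g z ≠ 0) :
    levi (fun w => Real.log (‖g w‖ ^ 2)) z ξ = 0 := by
  rw [levi_log_norm_sq h h0, ← scalar_fderiv_eq_logder h0]
  simp

/-- In a null direction the ratio `‖g‖²/‖G‖²` is flat to second order; hence the Levi form of
`χ(‖g‖²/‖G‖²) ρ` is `χ(‖g‖²/‖G‖²)` times that of `ρ`. -/
lemma levi_cutoff_mul {G : Cn n → H} {g : Cn n → ℂ} {ρ : Cn n → ℝ} {χ : ℝ → ℝ}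
    (hG : HolAt G z) (hg : HolAt g z) (hG0 : G z ≠ 0) (hg0 : g z ≠ 0) (hρ : ContDiffAt ℝ 2 ρ z)
    (hχ : ContDiff ℝ 2 χ) {c : ℂ} (hc : fderiv ℝ G z ξ = c • G z)
    (hc' : fderiv ℝ g z ξ = c • g z) :
    levi (fun w => χ (‖g w‖ ^ 2 / ‖G w‖ ^ 2) * ρ w) z ξ =
      χ (‖g z‖ ^ 2 / ‖G z‖ ^ 2) * levi ρ z ξ := by
  set f : Cn n → ℝ := fun w => Real.log (‖g w‖ ^ 2) + (-1) * Real.log (‖G w‖ ^ 2) with hf
  have c1 := contDiffAt_log_norm_sq hg hg0
  have c2 := contDiffAt_log_norm_sq hG hG0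
  have hf2 : ContDiffAt ℝ 2 f z := c1.add (contDiffAt_const.mul c2)
  have hlevi : levi f z ξ = 0 := by
    rw [hf, levi_add c1 (contDiffAt_const.mul c2), levi_const_mul (-1) c2,
      levi_log_scalar hg hg0, levi_log_norm_sq hG hG0, logder_of_eq hG0 hc, hc]
    simp
  have hD : ∀ η, fderiv ℝ f z η = 2 * (logder g z η).re - 2 * (logder G z η).re := by
    intro η
    have d1 := c1.differentiableAt (by norm_num : (2 : WithTop ℕ∞) ≠ 0)
    have d2 := c2.differentiableAt (by norm_num : (2 : WithTop ℕ∞) ≠ 0)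
    rw [hf, fderiv_fun_add d1 (d2.const_mul _), fderiv_const_mul d2]
    simp only [add_apply, smul_apply, smul_eq_mul]
    rw [fderiv_log_norm_sq hg hg0, fderiv_log_norm_sq hG hG0]
    ring
  have hD1 : fderiv ℝ f z ξ = 0 := by
    rw [hD, logder_of_eq hG0 hc, logder_of_eq hg0 hc']; ring
  have hD2 : fderiv ℝ f z (Complex.I • ξ) = 0 := by
    rw [hD, logder_I hG, logder_I hg, logder_of_eq hG0 hc, logder_of_eq hg0 hc']; ring
  have hev : (fun w => χ (‖g w‖ ^ 2 / ‖G w‖ ^ 2) * ρ w) =ᶠ[𝓝 z]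
      fun w => (fun w => χ (Real.exp (f w))) w * ρ w := by
    have e1 : ∀ᶠ w in 𝓝 z, g w ≠ 0 := hg.smooth.continuousAt.eventually_ne hg0
    have e2 : ∀ᶠ w in 𝓝 z, G w ≠ 0 := hG.smooth.continuousAt.eventually_ne hG0
    filter_upwards [e1, e2] with w h1 h2
    have p1 : (0 : ℝ) < ‖g w‖ ^ 2 := by positivity
    have p2 : (0 : ℝ) < ‖G w‖ ^ 2 := by positivity
    have : ‖g w‖ ^ 2 / ‖G w‖ ^ 2 = Real.exp (f w) := by
      simp only [hf]
      rw [Real.exp_add, Real.exp_log p1, neg_one_mul, Real.exp_neg, Real.exp_log p2]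
      rfl
    rw [this]
  have hh : ContDiff ℝ 2 (fun t => χ (Real.exp t)) := hχ.comp Real.contDiff_exp
  have hcomp : ContDiffAt ℝ 2 (fun w => χ (Real.exp (f w))) z := hh.contDiffAt.comp z hf2
  rw [levi_congr hev, levi_mul hcomp hρ,
    levi_comp_real (h := fun t => χ (Real.exp t)) hh.contDiffAt hf2, hlevi, hD1, hD2]
  have hDc : ∀ η, fderiv ℝ (fun w => χ (Real.exp (f w))) z η =
      deriv (fun t => χ (Real.exp t)) (f z) * fderiv ℝ f z η := by
    intro η
    have := ((hh.differentiable (by norm_num)).differentiableAt (x := f z)).hasDerivAt.comp_hasFDerivAt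
      z (hf2.differentiableAt (by norm_num)).hasFDerivAt
    have e : fderiv ℝ (fun w => χ (Real.exp (f w))) z =
      deriv (fun t => χ (Real.exp t)) (f z) • fderiv ℝ f z := this.fderiv
    rw [e]; simp
  rw [hDc, hDc, hD1, hD2]
  have e1 : Real.exp (f z) = ‖g z‖ ^ 2 / ‖G z‖ ^ 2 := by
    have p1 : (0 : ℝ) < ‖g z‖ ^ 2 := by positivity
    have p2 : (0 : ℝ) < ‖G z‖ ^ 2 := by positivity
    simp only [hf]
    rw [Real.exp_add, Real.exp_log p1, neg_one_mul, Real.exp_neg, Real.exp_log p2]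
    rfl
  rw [e1]
  ring

end hilbert

end Vale.Agent.P272
end
end
end

section

section

open scoped Manifold ContDiff Topology
open MeasureTheory Set Filter Metric

noncomputable section

namespace Vale.Agent.P272

variable {n : ℕ}

lemma two_le_infty : (2 : WithTop ℕ∞) ≤ ∞ := by
  have : ((2 : ℕ∞) : WithTop ℕ∞) ≤ ((⊤ : ℕ∞) : WithTop ℕ∞) := WithTop.coe_le_coe.2 le_top
  exact this

/-- smooth cutoff: zero for `t ≤ δ`, positive for `t > δ` -/
def cut (δ t : ℝ) : ℝ := expNegInvGlue (t - δ)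

lemma cut_contDiff (δ : ℝ) : ContDiff ℝ ∞ (cut δ) := by
  unfold cut
  exact expNegInvGlue.contDiff.comp (contDiff_id.sub contDiff_const)

lemma cut_eq_zero {δ t : ℝ} (h : t ≤ δ) : cut δ t = 0 :=
  expNegInvGlue.zero_of_nonpos (by linarith)

lemma cut_pos {δ t : ℝ} (h : δ < t) : 0 < cut δ t :=
  expNegInvGlue.pos_of_pos (by linarith)

lemma cut_nonneg {δ t : ℝ} : 0 ≤ cut δ t := expNegInvGlue.nonneg _

/-- Local data over a ball: a holomorphic map `G` to `ℓ²` with coordinates `g i`, locally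
uniformly square summable, and strictly plurisubharmonic functions `ρ i`. -/
structure LocalData (n : ℕ) (ι : Type*) (w0 : Cn n) (R : ℝ) where
  g : ι → Cn n → ℂ
  G : Cn n → lp (fun _ : ι => ℂ) 2
  ρ : ι → Cn n → ℝ
  u : ι → ℝ
  holo : ∀ i, DifferentiableOn ℂ (g i) (ball w0 R)
  smooth : ContDiffOn ℝ ∞ G (ball w0 R)
  coord : ∀ w ∈ ball w0 R, ∀ i, G w i = g i w
  summ : Summable u
  bound : ∀ i, ∀ w ∈ ball w0 R, ‖g i w‖ ^ 2 ≤ u i
  ne : ∀ w ∈ ball w0 R, G w ≠ 0
  ρsmooth : ∀ i, ContDiffOn ℝ ∞ (ρ i) (ball w0 R)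
  ρpsh : ∀ i, ∀ w ∈ ball w0 R, ∀ ξ : Cn n, ξ ≠ 0 → 0 < levi (ρ i) w ξ

namespace LocalData

variable {ι : Type*} {w0 : Cn n} {R : ℝ} (L : LocalData n ι w0 R)

/-- the sum of squares -/
def V (w : Cn n) : ℝ := ‖L.G w‖ ^ 2

lemma V_pos {w : Cn n} (hw : w ∈ ball w0 R) : 0 < L.V w := by
  have := L.ne w hw
  unfold V
  positivity

lemma smoothAt {w : Cn n} (hw : w ∈ ball w0 R) : ContDiffAt ℝ ∞ L.G w :=
  L.smooth.contDiffAt (isOpen_ball.mem_nhds hw)

lemma V_eq_tsum {w : Cn n} (hw : w ∈ ball w0 R) : L.V w = ∑' i, ‖L.g i w‖ ^ 2 := by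
  unfold V
  have := lp.norm_rpow_eq_tsum (p := 2) (by norm_num) (L.G w)
  simp only [ENNReal.toReal_ofNat, Real.rpow_ofNat] at this
  rw [this]
  exact tsum_congr fun i => by rw [L.coord w hw i]

lemma coord_eventually {z : Cn n} (hz : z ∈ ball w0 R) (i : ι) :
    L.g i =ᶠ[𝓝 z] fun w => lp.evalCLM (𝕜 := ℝ) (fun _ : ι => ℂ) 2 i (L.G w) := by
  filter_upwards [isOpen_ball.mem_nhds hz] with w hw
  exact (L.coord w hw i).symm

lemma g_smoothAt {z : Cn n} (hz : z ∈ ball w0 R) (i : ι) : ContDiffAt ℝ ∞ (L.g i) z := by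
  have : ContDiffAt ℝ ∞ (fun w => lp.evalCLM (𝕜 := ℝ) (fun _ : ι => ℂ) 2 i (L.G w)) z :=
    (ContinuousLinearMap.contDiff _).contDiffAt.comp z (L.smoothAt hz)
  exact this.congr_of_eventuallyEq (L.coord_eventually hz i)

lemma fderiv_g {z : Cn n} (hz : z ∈ ball w0 R) (i : ι) (ξ : Cn n) :
    fderiv ℝ (L.g i) z ξ = (fderiv ℝ L.G z ξ) i := by
  rw [(L.coord_eventually hz i).fderiv_eq]
  have h := ((lp.evalCLM (𝕜 := ℝ) (fun _ : ι => ℂ) 2 i).hasFDerivAt.comp z
    ((L.smoothAt hz).differentiableAt (by norm_num)).hasFDerivAt).fderiv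
  have e : fderiv ℝ (fun w => lp.evalCLM (𝕜 := ℝ) (fun _ : ι => ℂ) 2 i (L.G w)) z =
    (lp.evalCLM (𝕜 := ℝ) (fun _ : ι => ℂ) 2 i).comp (fderiv ℝ L.G z) := h
  rw [e]
  rfl

lemma g_holAt {z : Cn n} (hz : z ∈ ball w0 R) (i : ι) : HolAt (L.g i) z where
  smooth := (L.g_smoothAt hz i).of_le two_le_infty
  cr := by
    filter_upwards [isOpen_ball.mem_nhds hz] with w hw η
    exact cr_of_differentiableAt ((L.holo i).differentiableAt (isOpen_ball.mem_nhds hw)) η

lemma G_holAt {z : Cn n} (hz : z ∈ ball w0 R) : HolAt L.G z where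
  smooth := (L.smoothAt hz).of_le two_le_infty
  cr := by
    filter_upwards [isOpen_ball.mem_nhds hz] with w hw η
    apply lp.ext
    funext i
    have h1 := L.fderiv_g hw i (Complex.I • η)
    have h2 := L.fderiv_g hw i η
    have h3 := cr_of_differentiableAt ((L.holo i).differentiableAt (isOpen_ball.mem_nhds hw)) η
    exact h1.symm.trans (h3.trans (congrArg (fun t => Complex.I • t) h2))

lemma levi_logV {z ξ : Cn n} (hz : z ∈ ball w0 R) :
    levi (fun w => Real.log (L.V w)) z ξ =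
      4 * ‖fderiv ℝ L.G z ξ - logder L.G z ξ • L.G z‖ ^ 2 / ‖L.G z‖ ^ 2 :=
  levi_log_norm_sq (L.G_holAt hz) (L.ne z hz)

lemma levi_logV_nonneg {z ξ : Cn n} (hz : z ∈ ball w0 R) :
    0 ≤ levi (fun w => Real.log (L.V w)) z ξ := by
  rw [L.levi_logV hz]; positivity

lemma null_G {z ξ : Cn n} (hz : z ∈ ball w0 R)
    (h : levi (fun w => Real.log (L.V w)) z ξ = 0) :
    fderiv ℝ L.G z ξ = logder L.G z ξ • L.G z := by
  rw [L.levi_logV hz] at h
  have hp := L.V_pos hz
  unfold V at hp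
  have h1 : ‖fderiv ℝ L.G z ξ - logder L.G z ξ • L.G z‖ ^ 2 = 0 := by
    have := div_eq_zero_iff.mp h
    rcases this with h | h
    · linarith
    · exact absurd h hp.ne'
  exact sub_eq_zero.mp (norm_eq_zero.mp (pow_eq_zero_iff (two_ne_zero) |>.mp h1))

lemma null_g {z ξ : Cn n} (hz : z ∈ ball w0 R)
    (h : levi (fun w => Real.log (L.V w)) z ξ = 0) (i : ι) :
    fderiv ℝ (L.g i) z ξ = logder L.G z ξ • L.g i z := by
  rw [L.fderiv_g hz, L.null_G hz h, lp.coeFn_smul, Pi.smul_apply, L.coord z hz]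

/-- the ratio -/
def r (i : ι) (w : Cn n) : ℝ := ‖L.g i w‖ ^ 2 / L.V w

/-- the pushed down function -/
def ψ (δ : ℝ) (w : Cn n) : ℝ := ∑' i, cut δ (L.r i w) * L.ρ i w

lemma V_smoothAt {z : Cn n} (hz : z ∈ ball w0 R) : ContDiffAt ℝ ∞ L.V z :=
  contDiffAt_norm_sq (L.smoothAt hz)

lemma logV_smoothAt {z : Cn n} (hz : z ∈ ball w0 R) :
    ContDiffAt ℝ ∞ (fun w => Real.log (L.V w)) z :=
  (L.V_smoothAt hz).log (L.V_pos hz).ne'

lemma r_smoothAt {z : Cn n} (hz : z ∈ ball w0 R) (i : ι) : ContDiffAt ℝ ∞ (L.r i) z :=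
  ((L.g_smoothAt hz i).norm_sq ℝ).div (L.V_smoothAt hz) (L.V_pos hz).ne'

lemma term_smoothAt {z : Cn n} (hz : z ∈ ball w0 R) (δ : ℝ) (i : ι) :
    ContDiffAt ℝ ∞ (fun w => cut δ (L.r i w) * L.ρ i w) z :=
  ((cut_contDiff δ).contDiffAt.comp z (L.r_smoothAt hz i)).mul
    ((L.ρsmooth i).contDiffAt (isOpen_ball.mem_nhds hz))

/-- local finiteness -/
lemma exists_finset {δ : ℝ} (hδ : 0 < δ) {z : Cn n} (hz : z ∈ ball w0 R) :
    ∃ F : Finset ι, ∀ᶠ w in 𝓝 z, ∀ i ∉ F, L.r i w < δ := by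
  have hV := L.V_pos hz
  have hev : ∀ᶠ w in 𝓝 z, L.V z / 2 < L.V w :=
    (L.V_smoothAt hz).continuousAt.eventually (lt_mem_nhds (by linarith))
  have hsmall : ∀ᶠ i in cofinite, L.u i < δ * (L.V z / 2) :=
    L.summ.tendsto_cofinite_zero.eventually (gt_mem_nhds (by positivity))
  have hfin := Filter.eventually_cofinite.mp hsmall
  refine ⟨hfin.toFinset, ?_⟩
  filter_upwards [hev, isOpen_ball.mem_nhds hz] with w hw hwb i hi
  have hi' : L.u i < δ * (L.V z / 2) := by
    by_contra hc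
    exact hi (hfin.mem_toFinset.mpr hc)
  have hVw := L.V_pos hwb
  unfold r
  rw [div_lt_iff₀ hVw]
  calc ‖L.g i w‖ ^ 2 ≤ L.u i := L.bound i w hwb
    _ < δ * (L.V z / 2) := hi'
    _ ≤ δ * L.V w := by nlinarith

lemma ψ_eventually {δ : ℝ} {z : Cn n} {F : Finset ι}
    (hF : ∀ᶠ w in 𝓝 z, ∀ i ∉ F, L.r i w < δ) :
    L.ψ δ =ᶠ[𝓝 z] fun w => ∑ i ∈ F, cut δ (L.r i w) * L.ρ i w := by
  filter_upwards [hF] with w hw
  unfold ψ
  apply tsum_eq_sum
  intro i hi
  rw [cut_eq_zero (hw i hi).le, zero_mul]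

lemma ψ_smoothAt {δ : ℝ} (hδ : 0 < δ) {z : Cn n} (hz : z ∈ ball w0 R) :
    ContDiffAt ℝ ∞ (L.ψ δ) z := by
  obtain ⟨F, hF⟩ := L.exists_finset hδ hz
  exact (ContDiffAt.sum fun i _ => L.term_smoothAt hz δ i).congr_of_eventuallyEq
    (L.ψ_eventually hF)

lemma levi_ψ_pos {δ : ℝ} (hδ : 0 < δ) {z ξ : Cn n} (hz : z ∈ ball w0 R) (hξ : ξ ≠ 0)
    (hr : ∃ i, δ < L.r i z) (h : levi (fun w => Real.log (L.V w)) z ξ = 0) :
    0 < levi (L.ψ δ) z ξ := by
  obtain ⟨F, hF⟩ := L.exists_finset hδ hz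
  have h2 := two_le_infty
  rw [levi_congr (L.ψ_eventually hF), levi_sum F
    (fun i _ => (L.term_smoothAt hz δ i).of_le h2)]
  have key : ∀ i, levi (fun w => cut δ (L.r i w) * L.ρ i w) z ξ =
      cut δ (L.r i z) * levi (L.ρ i) z ξ := by
    intro i
    by_cases hg : L.g i z = 0
    · have h0 : L.r i z < δ := by
        unfold r; rw [hg]; simpa using hδ
      have hev : (fun w => cut δ (L.r i w) * L.ρ i w) =ᶠ[𝓝 z] fun _ => 0 := by
        filter_upwards [(L.r_smoothAt hz i).continuousAt.eventually (gt_mem_nhds h0)] with w hw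
        rw [cut_eq_zero hw.le, zero_mul]
      rw [levi_congr hev, levi_const, cut_eq_zero h0.le, zero_mul]
    · exact levi_cutoff_mul (L.G_holAt hz) (L.g_holAt hz i) (L.ne z hz) hg
        (((L.ρsmooth i).contDiffAt (isOpen_ball.mem_nhds hz)).of_le h2)
        ((cut_contDiff δ).of_le h2) (L.null_G hz h) (L.null_g hz h i)
  simp only [key]
  obtain ⟨i0, hi0⟩ := hr
  have hi0F : i0 ∈ F := by
    by_contra hcon
    exact absurd (hF.self_of_nhds i0 hcon) (not_lt.mpr hi0.le)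
  apply Finset.sum_pos'
  · intro i _
    exact mul_nonneg cut_nonneg (L.ρpsh i z hz ξ hξ).le
  · exact ⟨i0, hi0F, mul_pos (cut_pos hi0) (L.ρpsh i0 z hz ξ hξ)⟩

end LocalData

lemma levi_smul {f : Cn n → ℝ} {z ξ : Cn n} (t : ℝ) :
    levi f z (t • ξ) = t ^ 2 * levi f z ξ := by
  unfold levi
  rw [smul_comm Complex.I t ξ]
  simp only [map_smul, smul_apply, smul_eq_mul]
  ring

lemma levi_continuousOn {f : Cn n → ℝ} {U : Set (Cn n)} (hU : IsOpen U)
    (hf : ContDiffOn ℝ ∞ f U) :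
    ContinuousOn (fun p : Cn n × Cn n => levi f p.1 p.2) (U ×ˢ univ) := by
  have h1 : ContDiffOn ℝ 1 (fderiv ℝ f) U := hf.fderiv_of_isOpen hU two_le_infty
  have h2 : ContinuousOn (fderiv ℝ (fderiv ℝ f)) U :=
    h1.continuousOn_fderiv_of_isOpen hU (by norm_num)
  have h3 : ContinuousOn (fun p : Cn n × Cn n => fderiv ℝ (fderiv ℝ f) p.1) (U ×ˢ univ) :=
    h2.comp continuousOn_fst fun p hp => hp.1
  unfold levi
  have c1 : ContinuousOn (fun p : Cn n × Cn n => p.2) (U ×ˢ univ) := continuousOn_snd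
  have c2 : ContinuousOn (fun p : Cn n × Cn n => Complex.I • p.2) (U ×ˢ univ) :=
    (continuous_const_smul Complex.I).comp_continuousOn continuousOn_snd
  exact ((h3.clm_apply c1).clm_apply c1).add ((h3.clm_apply c2).clm_apply c2)

/-- compactness argument -/
lemma exists_eps_of_compact {α : Type*} [TopologicalSpace α] {K : Set α} (hK : IsCompact K)
    {a b : α → ℝ} (ha : ContinuousOn a K) (hb : ContinuousOn b K) (ha0 : ∀ x ∈ K, 0 ≤ a x)
    (hab : ∀ x ∈ K, a x = 0 → 0 < b x) {c : ℝ} (hc : 0 < c) :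
    ∃ ε0 : ℝ, 0 < ε0 ∧ ∀ ε, 0 < ε → ε ≤ ε0 → ∀ x ∈ K, 0 < c * a x + ε * b x := by
  obtain ⟨β, hβ⟩ := (hK.bddBelow_image hb)
  have hβ' : ∀ x ∈ K, β ≤ b x := fun x hx => hβ (mem_image_of_mem b hx)
  set B : ℝ := |β| + 1 with hB
  have hBpos : 0 < B := by positivity
  have hbB : ∀ x ∈ K, -B ≤ b x := fun x hx => by
    have := hβ' x hx
    have := neg_abs_le β
    linarith
  obtain ⟨A, hA, hAa⟩ : ∃ A : ℝ, 0 < A ∧ ∀ x ∈ K, b x ≤ 0 → A ≤ a x := by
    have hC : IsCompact (K ∩ b ⁻¹' (Iic 0)) := by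
      obtain ⟨u, hu, hu'⟩ := (continuousOn_iff_isClosed.mp hb) (Iic 0) isClosed_Iic
      rw [inter_comm, hu']
      exact hK.inter_left hu
    rcases (K ∩ b ⁻¹' (Iic 0)).eq_empty_or_nonempty with he | hne
    · refine ⟨1, one_pos, fun x hx hbx => ?_⟩
      have : x ∈ K ∩ b ⁻¹' (Iic 0) := ⟨hx, hbx⟩
      rw [he] at this
      exact absurd this (notMem_empty x)
    · obtain ⟨x0, hx0, hmin⟩ := hC.exists_isMinOn hne (ha.mono inter_subset_left)
      refine ⟨a x0, ?_, fun x hx hbx => hmin ⟨hx, hbx⟩⟩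
      rcases (ha0 x0 hx0.1).lt_or_eq with h | h
      · exact h
      · exact absurd (hab x0 hx0.1 h.symm) (not_lt.mpr hx0.2)
  refine ⟨c * A / (B + 1), by positivity, fun ε hε hle x hx => ?_⟩
  rcases le_or_gt (b x) 0 with h | h
  · have h1 := hAa x hx h
    have h2 := hbB x hx
    have h3 : ε * (B + 1) ≤ c * A := by
      rwa [le_div_iff₀ (by positivity)] at hle
    nlinarith
  · have := ha0 x hx
    positivity

namespace LocalData

variable {ι : Type*} {w0 : Cn n} {R : ℝ} (L : LocalData n ι w0 R)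

theorem exists_eps {δ : ℝ} (hδ : 0 < δ) (hr : ∀ w ∈ ball w0 R, ∃ i, δ < L.r i w) {c : ℝ}
    (hc : 0 < c) {R' : ℝ} (hR : R' < R) :
    ∃ ε0 : ℝ, 0 < ε0 ∧ ∀ ε, 0 < ε → ε ≤ ε0 → ∀ w ∈ closedBall w0 R', ∀ ξ : Cn n, ξ ≠ 0 →
      0 < levi (fun w => c * Real.log (L.V w) + ε * L.ψ δ w) w ξ := by
  have hsub : closedBall w0 R' ⊆ ball w0 R := closedBall_subset_ball hR
  have hK : IsCompact (closedBall w0 R' ×ˢ sphere (0 : Cn n) 1) :=
    (isCompact_closedBall _ _).prod (isCompact_sphere _ _)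
  have hsub2 : closedBall w0 R' ×ˢ sphere (0 : Cn n) 1 ⊆ ball w0 R ×ˢ univ :=
    prod_mono hsub (subset_univ _)
  have s1 : ContDiffOn ℝ ∞ (fun w => Real.log (L.V w)) (ball w0 R) :=
    fun w hw => (L.logV_smoothAt hw).contDiffWithinAt
  have s2 : ContDiffOn ℝ ∞ (L.ψ δ) (ball w0 R) :=
    fun w hw => (L.ψ_smoothAt hδ hw).contDiffWithinAt
  obtain ⟨ε0, h0, H⟩ := exists_eps_of_compact hK
    ((levi_continuousOn isOpen_ball s1).mono hsub2) ((levi_continuousOn isOpen_ball s2).mono hsub2)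
    (fun x hx => L.levi_logV_nonneg (hsub hx.1))
    (fun x hx h => L.levi_ψ_pos hδ (hsub hx.1)
      (ne_zero_of_mem_unit_sphere ⟨x.2, hx.2⟩) (hr x.1 (hsub hx.1)) h) hc
  refine ⟨ε0, h0, fun ε hε hle w hw ξ hξ => ?_⟩
  have hw' := hsub hw
  have c1 := (L.logV_smoothAt hw').of_le two_le_infty
  have c2 := (L.ψ_smoothAt hδ hw').of_le two_le_infty
  have hnorm : 0 < ‖ξ‖ := norm_pos_iff.mpr hξ
  have hmem : (‖ξ‖⁻¹ • ξ) ∈ sphere (0 : Cn n) 1 := by
    rw [mem_sphere_zero_iff_norm, norm_smul, norm_inv, norm_norm]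
    field_simp
  have := H ε hε hle (w, ‖ξ‖⁻¹ • ξ) ⟨hw, hmem⟩
  simp only at this
  rw [levi_smul, levi_smul] at this
  rw [levi_add (contDiffAt_const.mul c1) (contDiffAt_const.mul c2), levi_const_mul c c1,
    levi_const_mul ε c2]
  have hp : 0 < (‖ξ‖⁻¹) ^ 2 := by positivity
  have h3 : 0 < (‖ξ‖⁻¹) ^ 2 * (c * levi (fun w => Real.log (L.V w)) w ξ +
      ε * levi (L.ψ δ) w ξ) := by
    linarith
  exact (pos_iff_pos_of_mul_pos h3).mp hp

end LocalData

end Vale.Agent.P272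
end
end
end

section

section

open scoped Manifold ContDiff Topology
open MeasureTheory Set Metric

noncomputable section

namespace Vale.Agent.P272

variable {n : ℕ}

/-- Multiplication by a complex number of modulus one preserves Lebesgue measure. -/
theorem measurePreserving_rot (u : ℂ) (hu : ‖u‖ = 1) :
    MeasurePreserving (fun a : Cn n => u • a) volume volume := by
  have hu0 : u ≠ 0 := by
    intro h; simp [h] at hu
  let e : Cn n ≃ₗ[ℝ] Cn n :=
    { toFun := fun a => u • a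
      invFun := fun a => u⁻¹ • a
      map_add' := fun a b => smul_add u a b
      map_smul' := fun c a => smul_comm u c a
      left_inv := fun a => by simp [smul_smul, inv_mul_cancel₀ hu0]
      right_inv := fun a => by simp [smul_smul, mul_inv_cancel₀ hu0] }
  let L : Cn n ≃ₗᵢ[ℝ] Cn n := ⟨e, fun a => by simp [e, norm_smul, hu]⟩
  exact L.measurePreserving

/-- One-dimensional mean value property along a circle. -/
theorem circle_mean {g : Cn n → ℂ} {w0 : Cn n} {R ρ : ℝ}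
    (hg : DifferentiableOn ℂ g (ball w0 R)) {w : Cn n} (hw : closedBall w ρ ⊆ ball w0 R)
    {a : Cn n} (ha : ‖a‖ ≤ ρ) :
    (2 * Real.pi)⁻¹ • ∫ θ in (0:ℝ)..2 * Real.pi, g (w + Complex.exp (θ * Complex.I) • a) = g w := by
  have hd : DiffContOnCl ℂ (fun ζ : ℂ => g (w + ζ • a)) (ball 0 |(1:ℝ)|) := by
    have hcl : closure (ball (0:ℂ) |(1:ℝ)|) = closedBall 0 1 := by
      rw [abs_one, closure_ball _ one_ne_zero]
    have hmaps : MapsTo (fun ζ : ℂ => w + ζ • a) (closedBall 0 1) (ball w0 R) := by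
      intro ζ hζ
      apply hw
      rw [mem_closedBall, dist_eq_norm]
      have : w + ζ • a - w = ζ • a := by abel
      rw [this, norm_smul]
      have h1 : ‖ζ‖ ≤ 1 := by simpa using hζ
      calc ‖ζ‖ * ‖a‖ ≤ 1 * ‖a‖ := by gcongr
        _ ≤ ρ := by simpa using ha
    have hdiff : DifferentiableOn ℂ (fun ζ : ℂ => g (w + ζ • a)) (closedBall 0 1) := by
      refine hg.comp ?_ hmaps
      fun_prop
    apply DifferentiableOn.diffContOnCl
    rw [hcl]
    exact hdiff
  have h := hd.circleAverage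
  simp only [Real.circleAverage, circleMap, zero_add, zero_smul, add_zero, Complex.ofReal_one,
    one_mul] at h
  exact h

/-- Mean value property for a radial weight. -/
theorem weighted_mean {g : Cn n → ℂ} {w0 : Cn n} {R ρ : ℝ}
    (hg : DifferentiableOn ℂ g (ball w0 R)) {w : Cn n} (hw : closedBall w ρ ⊆ ball w0 R)
    {φ : Cn n → ℝ} (hφc : Continuous φ) (hφs : ∀ a, ρ ≤ ‖a‖ → φ a = 0)
    (hφr : ∀ (u : ℂ) (a : Cn n), ‖u‖ = 1 → φ (u • a) = φ a) :
    ∫ a, φ a • g (w + a) = (∫ a, φ a) • g w := by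
  -- the function of two variables
  set F : ℝ → Cn n → ℂ := fun θ a => φ a • g (w + Complex.exp (θ * Complex.I) • a) with hF
  have hexp : ∀ θ : ℝ, ‖Complex.exp (θ * Complex.I)‖ = 1 := fun θ => by
    rw [Complex.norm_exp_ofReal_mul_I]
  have hzero : ∀ θ a, a ∉ closedBall (0 : Cn n) ρ → F θ a = 0 := by
    intro θ a ha
    have : ρ ≤ ‖a‖ := by
      simp only [mem_closedBall, dist_zero_right, not_le] at ha
      exact ha.le
    simp [hF, hφs a this]
  have hI : ∀ θ : ℝ, ∫ a, F θ a = ∫ a, φ a • g (w + a) := by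
    intro θ
    have hmp := measurePreserving_rot (n := n) (Complex.exp (θ * Complex.I)) (hexp θ)
    have hemb : MeasurableEmbedding (fun a : Cn n => Complex.exp (θ * Complex.I) • a) := by
      have : Function.Injective (fun a : Cn n => Complex.exp (θ * Complex.I) • a) :=
        smul_right_injective _ (Complex.exp_ne_zero _)
      exact (Continuous.measurableEmbedding (by fun_prop) this)
    rw [← hmp.integral_comp hemb (fun a => φ a • g (w + a))]
    congr 1
    ext a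
    simp only [hF]
    rw [hφr _ a (hexp θ)]
  have hgc : ∀ x ∈ ball w0 R, ContinuousAt g x := fun x hx =>
    (hg.continuousOn).continuousAt (isOpen_ball.mem_nhds hx)
  -- joint continuity on the relevant set
  have hcont : ContinuousOn (Function.uncurry F) (univ ×ˢ closedBall (0 : Cn n) ρ) := by
    rintro ⟨θ, a⟩ ⟨-, ha⟩
    have hmem : w + Complex.exp (θ * Complex.I) • a ∈ ball w0 R := by
      apply hw
      rw [mem_closedBall, dist_eq_norm]
      have h1 : w + Complex.exp (θ * Complex.I) • a - w = Complex.exp (θ * Complex.I) • a := by abel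
      rw [h1, norm_smul, hexp θ, one_mul]
      simpa using ha
    have h2 : ContinuousAt (fun p : ℝ × Cn n => w + Complex.exp (p.1 * Complex.I) • p.2) (θ, a) := by
      fun_prop
    have h3 : ContinuousAt (fun p : ℝ × Cn n => g (w + Complex.exp (p.1 * Complex.I) • p.2))
        (θ, a) := ContinuousAt.comp (f := fun p : ℝ × Cn n => w + Complex.exp (p.1 * Complex.I) • p.2)
          (g := g) (hgc _ hmem) h2
    have h4 : ContinuousAt (fun p : ℝ × Cn n => φ p.2 • g (w + Complex.exp (p.1 * Complex.I) • p.2))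
        (θ, a) := by
      exact ContinuousAt.smul (hφc.comp continuous_snd).continuousAt h3
    exact h4.continuousWithinAt
  have hint : IntegrableOn (Function.uncurry F) (Icc 0 (2 * Real.pi) ×ˢ closedBall (0 : Cn n) ρ)
      (volume.prod volume) := by
    apply ContinuousOn.integrableOn_compact
    · exact isCompact_Icc.prod (isCompact_closedBall _ _)
    · exact hcont.mono (prod_mono (subset_univ _) subset_rfl)
  have hint' : Integrable (Function.uncurry F)
      ((volume.restrict (Ioc 0 (2 * Real.pi))).prod (volume.restrict (closedBall (0 : Cn n) ρ))) := by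
    rw [Measure.prod_restrict]
    exact hint.mono_set (prod_mono Ioc_subset_Icc_self subset_rfl)
  have hrestr : ∀ θ : ℝ, ∫ a, F θ a = ∫ a in closedBall (0 : Cn n) ρ, F θ a := by
    intro θ
    rw [setIntegral_eq_integral_of_forall_compl_eq_zero (fun a ha => hzero θ a ha)]
  have hpi : (0:ℝ) ≤ 2 * Real.pi := by positivity
  have hswap : ∫ θ in (0:ℝ)..2 * Real.pi, ∫ a in closedBall (0 : Cn n) ρ, F θ a
      = ∫ a in closedBall (0 : Cn n) ρ, ∫ θ in (0:ℝ)..2 * Real.pi, F θ a := by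
    simp only [intervalIntegral.integral_of_le hpi]
    exact integral_integral_swap hint'
  have hconst : ∫ a, φ a • g (w + a)
      = (2 * Real.pi)⁻¹ • ∫ θ in (0:ℝ)..2 * Real.pi, ∫ a in closedBall (0 : Cn n) ρ, F θ a := by
    have : ∀ θ : ℝ, ∫ a in closedBall (0 : Cn n) ρ, F θ a = ∫ a, φ a • g (w + a) := fun θ => by
      rw [← hrestr, hI]
    simp only [this, intervalIntegral.integral_const, sub_zero, smul_smul]
    rw [inv_mul_cancel₀ (by positivity), one_smul]
  rw [hconst, hswap, ← integral_smul]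
  have hinner : ∀ a ∈ closedBall (0 : Cn n) ρ,
      (2 * Real.pi)⁻¹ • ∫ θ in (0:ℝ)..2 * Real.pi, F θ a = φ a • g w := by
    intro a ha
    have ha' : ‖a‖ ≤ ρ := by simpa using ha
    simp only [hF]
    rw [intervalIntegral.integral_smul, smul_comm, circle_mean hg hw ha']
  rw [setIntegral_congr_fun measurableSet_closedBall hinner]
  rw [integral_smul_const]
  congr 1
  rw [setIntegral_eq_integral_of_forall_compl_eq_zero]
  intro a ha
  apply hφs
  simp only [mem_closedBall, dist_zero_right, not_le] at ha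
  exact ha.le

/-- A smooth radial bump function supported in the closed ball of radius `ρ`. -/
def rbump (ρ : ℝ) (a : Cn n) : ℝ := expNegInvGlue (ρ ^ 2 - ‖a‖ ^ 2)

theorem rbump_contDiff (ρ : ℝ) : ContDiff ℝ ∞ (rbump ρ : Cn n → ℝ) :=
  expNegInvGlue.contDiff.comp (contDiff_const.sub (contDiff_norm_sq ℝ))

theorem rbump_continuous (ρ : ℝ) : Continuous (rbump ρ : Cn n → ℝ) :=
  (rbump_contDiff ρ).continuous

theorem rbump_nonneg (ρ : ℝ) (a : Cn n) : 0 ≤ rbump ρ a := expNegInvGlue.nonneg _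

theorem rbump_le_one (ρ : ℝ) (a : Cn n) : rbump ρ a ≤ 1 := by
  unfold rbump expNegInvGlue
  split_ifs with h
  · exact zero_le_one
  · rw [Real.exp_le_one_iff]
    have : 0 < ρ ^ 2 - ‖a‖ ^ 2 := not_le.mp h
    have := inv_pos.mpr this
    linarith

theorem rbump_zero {ρ : ℝ} (hρ : 0 ≤ ρ) {a : Cn n} (ha : ρ ≤ ‖a‖) : rbump ρ a = 0 := by
  unfold rbump
  apply expNegInvGlue.zero_of_nonpos
  nlinarith [norm_nonneg a]

theorem rbump_pos {ρ : ℝ} {a : Cn n} (ha : ‖a‖ < ρ) : 0 < rbump ρ a := by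
  unfold rbump
  apply expNegInvGlue.pos_of_pos
  nlinarith [norm_nonneg a]

theorem rbump_radial (ρ : ℝ) (u : ℂ) (a : Cn n) (hu : ‖u‖ = 1) :
    rbump ρ (u • a) = rbump ρ a := by
  unfold rbump
  rw [norm_smul, hu, one_mul]

theorem rbump_hasCompactSupport {ρ : ℝ} (hρ : 0 ≤ ρ) :
    HasCompactSupport (rbump ρ : Cn n → ℝ) := by
  apply HasCompactSupport.of_support_subset_isCompact (isCompact_closedBall (0 : Cn n) ρ)
  intro a ha
  rw [mem_closedBall, dist_zero_right]
  by_contra h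
  exact ha (rbump_zero hρ (not_le.mp h).le)

theorem rbump_integrable {ρ : ℝ} (hρ : 0 ≤ ρ) : Integrable (rbump ρ : Cn n → ℝ) :=
  (rbump_continuous ρ).integrable_of_hasCompactSupport (rbump_hasCompactSupport hρ)

theorem rbump_integral_pos {ρ : ℝ} (hρ : 0 < ρ) : 0 < ∫ a : Cn n, rbump ρ a := by
  rw [integral_pos_iff_support_of_nonneg (rbump_nonneg ρ) (rbump_integrable hρ.le)]
  have h1 : ball (0 : Cn n) ρ ⊆ Function.support (rbump ρ : Cn n → ℝ) := by
    intro a ha
    have : ‖a‖ < ρ := by simpa using ha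
    exact (rbump_pos this).ne'
  exact (measure_ball_pos volume (0 : Cn n) hρ).trans_le (measure_mono h1)

/-- Sub-mean value property for the square of a holomorphic function. -/
theorem sup_bound {g : Cn n → ℂ} {w0 : Cn n} {R ρ : ℝ} (hρ : 0 < ρ)
    (hg : DifferentiableOn ℂ g (ball w0 R)) {w : Cn n} (hw : closedBall w ρ ⊆ ball w0 R) :
    ENNReal.ofReal (∫ a : Cn n, rbump ρ a) * ‖g w‖ₑ ^ 2
      ≤ ∫⁻ x in closedBall w ρ, ‖g x‖ₑ ^ 2 := by
  have hg2 : DifferentiableOn ℂ (fun x => g x ^ 2) (ball w0 R) := hg.pow 2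
  have h := weighted_mean hg2 hw (rbump_continuous ρ) (fun a ha => rbump_zero hρ.le ha)
    (fun u a hu => rbump_radial ρ u a hu)
  have hc := rbump_integral_pos (n := n) hρ
  calc ENNReal.ofReal (∫ a : Cn n, rbump ρ a) * ‖g w‖ₑ ^ 2
      = ‖(∫ a : Cn n, rbump ρ a) • (g w ^ 2)‖ₑ := by
        rw [enorm_smul, enorm_pow, Real.enorm_of_nonneg hc.le]
    _ = ‖∫ a : Cn n, rbump ρ a • (g (w + a) ^ 2)‖ₑ := by rw [← h]
    _ ≤ ∫⁻ a : Cn n, ‖rbump ρ a • (g (w + a) ^ 2)‖ₑ := enorm_integral_le_lintegral_enorm _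
    _ ≤ ∫⁻ a : Cn n, (closedBall w ρ).indicator (fun x => ‖g x‖ₑ ^ 2) (w + a) := by
        apply lintegral_mono
        intro a
        by_cases ha : w + a ∈ closedBall w ρ
        · simp only [indicator_of_mem ha, enorm_smul, enorm_pow]
          calc ‖rbump ρ a‖ₑ * ‖g (w + a)‖ₑ ^ 2 ≤ 1 * ‖g (w + a)‖ₑ ^ 2 := by
                gcongr
                rw [Real.enorm_of_nonneg (rbump_nonneg ρ a)]
                exact ENNReal.ofReal_le_one.mpr (rbump_le_one ρ a)
            _ = ‖g (w + a)‖ₑ ^ 2 := one_mul _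
        · have h2 : ρ ≤ ‖a‖ := by
            simp only [mem_closedBall, dist_eq_norm, add_sub_cancel_left, not_le] at ha
            exact ha.le
          simp [rbump_zero hρ.le h2]
    _ = ∫⁻ x : Cn n, (closedBall w ρ).indicator (fun x => ‖g x‖ₑ ^ 2) x :=
        lintegral_add_left_eq_self _ w
    _ = ∫⁻ x in closedBall w ρ, ‖g x‖ₑ ^ 2 := lintegral_indicator measurableSet_closedBall _

/-- Uniform summable bound for a square-integrable family of holomorphic functions. -/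
theorem exists_summable_bound {ι : Type*} (g : ι → Cn n → ℂ) (w0 : Cn n) {R r s : ℝ}
    (h1 : s < r) (h2 : r < R)
    (hg : ∀ i, DifferentiableOn ℂ (g i) (ball w0 R))
    (hL2 : ∫⁻ w in closedBall w0 r, ∑' i, ‖g i w‖ₑ ^ 2 < ⊤) :
    ∃ u : ι → ℝ, Summable u ∧ ∀ i, ∀ w ∈ closedBall w0 s, ‖g i w‖ ^ 2 ≤ u i := by
  set ρ : ℝ := r - s with hρdef
  have hρ : 0 < ρ := sub_pos.mpr h1
  set c : ℝ := ∫ a : Cn n, rbump ρ a with hcdef
  have hc : 0 < c := rbump_integral_pos hρ
  set v : ι → ENNReal := fun i => ∫⁻ w in closedBall w0 r, ‖g i w‖ₑ ^ 2 with hv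
  have hsub : closedBall w0 r ⊆ ball w0 R := closedBall_subset_ball h2
  have hmeas : ∀ i, AEMeasurable (fun w => ‖g i w‖ₑ ^ 2) (volume.restrict (closedBall w0 r)) := by
    intro i
    have : ContinuousOn (g i) (closedBall w0 r) := (hg i).continuousOn.mono hsub
    exact (this.aemeasurable measurableSet_closedBall).enorm.pow_const 2
  have hsum : ∑' i, v i ≤ ∫⁻ w in closedBall w0 r, ∑' i, ‖g i w‖ₑ ^ 2 := by
    rw [ENNReal.tsum_eq_iSup_sum]
    apply iSup_le
    intro t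
    rw [hv, ← lintegral_finsetSum' t (fun i _ => hmeas i)]
    exact lintegral_mono fun w => ENNReal.sum_le_tsum t
  have hne : ∑' i, v i ≠ ⊤ := (hsum.trans_lt hL2).ne
  have hne' : ∑' i, (ENNReal.ofReal c)⁻¹ * v i ≠ ⊤ := by
    rw [ENNReal.tsum_mul_left]
    exact ENNReal.mul_ne_top (ENNReal.inv_ne_top.mpr (by simpa using hc)) hne
  refine ⟨fun i => ((ENNReal.ofReal c)⁻¹ * v i).toReal, ENNReal.summable_toReal hne', ?_⟩
  intro i w hw
  have hball : closedBall w ρ ⊆ closedBall w0 r := by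
    intro x hx
    rw [mem_closedBall] at *
    calc dist x w0 ≤ dist x w + dist w w0 := dist_triangle _ _ _
      _ ≤ ρ + s := add_le_add hx hw
      _ = r := by rw [hρdef]; ring
  have hb := sup_bound hρ (hg i) (hball.trans hsub)
  have hb2 : ENNReal.ofReal c * ‖g i w‖ₑ ^ 2 ≤ v i :=
    hb.trans (lintegral_mono_set hball)
  have hcne : ENNReal.ofReal c ≠ 0 := by simpa using hc
  have hb3 : ‖g i w‖ₑ ^ 2 ≤ (ENNReal.ofReal c)⁻¹ * v i := by
    rw [← ENNReal.div_eq_inv_mul]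
    rw [ENNReal.le_div_iff_mul_le (Or.inl hcne) (Or.inl ENNReal.ofReal_ne_top), mul_comm]
    exact hb2
  have htop : (ENNReal.ofReal c)⁻¹ * v i ≠ ⊤ := ENNReal.ne_top_of_tsum_ne_top hne' i
  have := ENNReal.toReal_mono htop hb3
  simpa [ENNReal.toReal_pow] using this

section Lift

variable {ι : Type*}

theorem memlp_of_bound {x : ι → ℂ} {u : ι → ℝ} (hu : Summable u) (h : ∀ i, ‖x i‖ ^ 2 ≤ u i) :
    Memℓp x 2 := by
  apply memℓp_gen
  simp only [ENNReal.toReal_ofNat, Real.rpow_ofNat]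
  exact Summable.of_nonneg_of_le (fun i => by positivity) h hu

open Classical in
/-- The sequence `(g i w)` as an element of `ℓ²` (zero if it is not square summable). -/
def liftFun (g : ι → Cn n → ℂ) (w : Cn n) : lp (fun _ : ι => ℂ) 2 :=
  if h : Memℓp (fun i => g i w) 2 then ⟨fun i => g i w, h⟩ else 0

theorem liftFun_apply {g : ι → Cn n → ℂ} {w : Cn n} (h : Memℓp (fun i => g i w) 2) (i : ι) :
    liftFun g w i = g i w := by
  unfold liftFun
  rw [dif_pos h]

theorem norm_sq_lp (x : lp (fun _ : ι => ℂ) 2) : ‖x‖ ^ 2 = ∑' i, ‖x i‖ ^ 2 := by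
  have h := lp.norm_rpow_eq_tsum (p := 2) (by simp) x
  simpa only [ENNReal.toReal_ofNat, Real.rpow_ofNat] using h

theorem liftFun_continuousOn {g : ι → Cn n → ℂ} {K : Set (Cn n)} {u : ι → ℝ} (hu : Summable u)
    (h : ∀ i, ∀ w ∈ K, ‖g i w‖ ^ 2 ≤ u i) (hg : ∀ i, ContinuousOn (g i) K) :
    ContinuousOn (liftFun g) K := by
  intro w hw
  rw [ContinuousWithinAt, tendsto_iff_norm_sub_tendsto_zero]
  have hmem : ∀ y ∈ K, Memℓp (fun i => g i y) 2 := fun y hy => memlp_of_bound hu fun i => h i y hy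
  have hkey : Filter.Tendsto (fun y => ∑' i, ‖g i y - g i w‖ ^ 2) (𝓝[K] w) (𝓝 (∑' _i : ι, (0:ℝ))) := by
    apply tendsto_tsum_of_dominated_convergence (bound := fun i => 4 * u i) (hu.mul_left 4)
    · intro i
      have h1 : Filter.Tendsto (fun y => g i y - g i w) (𝓝[K] w) (𝓝 (g i w - g i w)) :=
        (hg i w hw).sub tendsto_const_nhds
      have h2 := (h1.norm.pow 2)
      simpa using h2
    · filter_upwards [self_mem_nhdsWithin] with y hy i
      rw [Real.norm_of_nonneg (by positivity)]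
      have h1 := h i y hy
      have h2 := h i w hw
      have h3 : ‖g i y - g i w‖ ≤ ‖g i y‖ + ‖g i w‖ := norm_sub_le _ _
      have h4 : ‖g i y - g i w‖ ^ 2 ≤ (‖g i y‖ + ‖g i w‖) ^ 2 := by gcongr
      nlinarith [sq_nonneg (‖g i y‖ - ‖g i w‖)]
  simp only [tsum_zero] at hkey
  have hsq : Filter.Tendsto (fun y => ‖liftFun g y - liftFun g w‖ ^ 2) (𝓝[K] w) (𝓝 0) := by
    refine hkey.congr' ?_
    filter_upwards [self_mem_nhdsWithin] with y hy
    rw [norm_sq_lp]
    apply tsum_congr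
    intro i
    rw [lp.coeFn_sub, Pi.sub_apply, liftFun_apply (hmem y hy), liftFun_apply (hmem w hw)]
  have := hsq.sqrt
  simpa [Real.sqrt_sq (norm_nonneg _)] using this

end Lift

/-- A family of holomorphic functions with a uniform summable bound lifts to a smooth
`ℓ²`-valued function on a smaller ball. -/
theorem smooth_lift_of_bound {ι : Type*} {n : ℕ} (g : ι → Cn n → ℂ) (w0 : Cn n) {R s r' : ℝ}
    (hr's : r' < s) (hsR : s < R)
    (hg : ∀ i, DifferentiableOn ℂ (g i) (Metric.ball w0 R))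
    {u : ι → ℝ} (hu : Summable u) (hbound : ∀ i, ∀ w ∈ closedBall w0 s, ‖g i w‖ ^ 2 ≤ u i) :
    ∃ G : Cn n → lp (fun _ : ι => ℂ) 2, ContDiffOn ℝ ∞ G (Metric.ball w0 r') ∧
      (∀ w ∈ Metric.ball w0 r', ∀ i, G w i = g i w) := by
  set ρ : ℝ := s - r' with hρdef
  have hρ : 0 < ρ := sub_pos.mpr hr's
  set c : ℝ := ∫ a : Cn n, rbump ρ a with hcdef
  have hc : 0 < c := rbump_integral_pos hρ
  have hsubR : closedBall w0 s ⊆ ball w0 R := closedBall_subset_ball hsR
  have hmem : ∀ y ∈ closedBall w0 s, Memℓp (fun i => g i y) 2 := fun y hy =>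
    memlp_of_bound hu fun i => hbound i y hy
  have hcontG : ContinuousOn (liftFun g) (closedBall w0 s) :=
    liftFun_continuousOn hu hbound fun i => (hg i).continuousOn.mono hsubR
  have hintG : IntegrableOn (liftFun g) (closedBall w0 s) :=
    hcontG.integrableOn_compact (isCompact_closedBall _ _)
  set G1 : Cn n → lp (fun _ : ι => ℂ) 2 := (closedBall w0 s).indicator (liftFun g) with hG1
  have hG1int : Integrable G1 := (integrable_indicator_iff measurableSet_closedBall).mpr hintG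
  have hG1loc : LocallyIntegrable G1 := hG1int.locallyIntegrable
  set C : Cn n → lp (fun _ : ι => ℂ) 2 :=
    MeasureTheory.convolution (rbump ρ : Cn n → ℝ) G1 (ContinuousLinearMap.lsmul ℝ ℝ) volume with hC
  have hCsmooth : ContDiff ℝ ∞ C :=
    (rbump_hasCompactSupport hρ.le).contDiff_convolution_left _ (rbump_contDiff ρ) hG1loc
  have hball_sub : ∀ w ∈ ball w0 r', closedBall w ρ ⊆ closedBall w0 s := by
    intro w hw x hx
    rw [mem_closedBall] at *
    rw [mem_ball] at hw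
    calc dist x w0 ≤ dist x w + dist w w0 := dist_triangle _ _ _
      _ ≤ ρ + r' := add_le_add hx hw.le
      _ = s := by rw [hρdef]; ring
  have hCval : ∀ w ∈ ball w0 r', ∀ i, C w i = c • g i w := by
    intro w hw i
    have hex : Integrable (fun t => rbump ρ t • G1 (w - t)) :=
      (rbump_hasCompactSupport hρ.le).convolutionExists_left (ContinuousLinearMap.lsmul ℝ ℝ)
        (rbump_continuous ρ) hG1loc w
    have hval : C w = ∫ t, rbump ρ t • G1 (w - t) := rfl
    have hev : C w i = (lp.evalCLM ℝ (fun _ : ι => ℂ) 2 i) (C w) := rfl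
    rw [hev, hval, ← ContinuousLinearMap.integral_comp_comm _ hex]
    have hcongr : ∀ t, (lp.evalCLM ℝ (fun _ : ι => ℂ) 2 i) (rbump ρ t • G1 (w - t))
        = rbump ρ (-t) • g i (w + (-t)) := by
      intro t
      rw [map_smul]
      have hneg : rbump ρ (-t) = rbump ρ t := by
        have := rbump_radial ρ (-1) t (by simp)
        simpa using this
      rw [hneg, ← sub_eq_add_neg]
      by_cases ht : ρ ≤ ‖t‖
      · rw [rbump_zero hρ.le ht, zero_smul, zero_smul]
      · have hmem1 : w - t ∈ closedBall w0 s := by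
          apply hball_sub w hw
          rw [mem_closedBall, dist_eq_norm]
          simpa using (not_le.mp ht).le
        congr 1
        rw [hG1, indicator_of_mem hmem1]
        exact liftFun_apply (hmem _ hmem1) i
    simp only [hcongr]
    rw [integral_neg_eq_self (fun t => rbump ρ t • g i (w + t))]
    exact weighted_mean (hg i) ((hball_sub w hw).trans hsubR) (rbump_continuous ρ)
      (fun a ha => rbump_zero hρ.le ha) (fun u a hu => rbump_radial ρ u a hu)
  refine ⟨fun w => c⁻¹ • C w, (hCsmooth.const_smul c⁻¹).contDiffOn, ?_⟩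
  intro w hw i
  rw [lp.coeFn_smul, Pi.smul_apply, hCval w hw i, smul_smul, inv_mul_cancel₀ hc.ne', one_smul]

end Vale.Agent.P272
end
end
end

section

section

open scoped Manifold ContDiff Topology
open MeasureTheory Set Filter Metric

noncomputable section

namespace Vale.Agent.P272

variable {n m : ℕ} {D X : Type*} [TopologicalSpace D] [ChartedSpace (Cn n) D]
  [TopologicalSpace X] [ChartedSpace (Cn n) X]

section manifoldX
variable [IsManifold 𝓘(ℂ, Cn n) ω X]

lemma chart_contMDiffAt {e : OpenPartialHomeomorph X (Cn n)} (he : e ∈ atlas (Cn n) X) {x : X}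
    (hx : x ∈ e.source) : ContMDiffAt 𝓘(ℂ, Cn n) 𝓘(ℂ, Cn n) ω e x :=
  (contMDiffOn_of_mem_maximalAtlas (IsManifold.subset_maximalAtlas he)).contMDiffAt
    (e.open_source.mem_nhds hx)

lemma chart_symm_contMDiffAt {e : OpenPartialHomeomorph X (Cn n)} (he : e ∈ atlas (Cn n) X)
    {w : Cn n} (hw : w ∈ e.target) : ContMDiffAt 𝓘(ℂ, Cn n) 𝓘(ℂ, Cn n) ω e.symm w :=
  (contMDiffOn_symm_of_mem_maximalAtlas (IsManifold.subset_maximalAtlas he)).contMDiffAt
    (e.open_target.mem_nhds hw)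

lemma transition_contDiffAt {e e' : OpenPartialHomeomorph X (Cn n)} (he : e ∈ atlas (Cn n) X)
    (he' : e' ∈ atlas (Cn n) X) {x : X} (hx : x ∈ e.source ∩ e'.source) :
    ContDiffAt ℂ ω (e' ∘ e.symm) (e x) := by
  rw [← contMDiffAt_iff_contDiffAt]
  have h1 := chart_symm_contMDiffAt he (e.map_source hx.1)
  refine ContMDiffAt.comp (e x) ?_ h1
  rw [e.left_inv hx.1]
  exact chart_contMDiffAt he' hx.2

/-- transition maps are inverse to each other near a point -/
lemma transition_inv {e e' : OpenPartialHomeomorph X (Cn n)} {x : X}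
    (hx : x ∈ e.source ∩ e'.source) :
    (e ∘ e'.symm) ∘ (e' ∘ e.symm) =ᶠ[𝓝 (e x)] id := by
  have h1 : ∀ᶠ w in 𝓝 (e x), w ∈ e.target := e.open_target.mem_nhds (e.map_source hx.1)
  have h2 : ∀ᶠ w in 𝓝 (e x), e.symm w ∈ e'.source := by
    have := (e.continuousAt_symm (e.map_source hx.1)).eventually
      (e'.open_source.mem_nhds (by rw [e.left_inv hx.1]; exact hx.2))
    exact this
  filter_upwards [h1, h2] with w hw hw'
  simp [e'.left_inv hw', e.right_inv hw]

lemma transition_jac_mul {e e' : OpenPartialHomeomorph X (Cn n)} (he : e ∈ atlas (Cn n) X)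
    (he' : e' ∈ atlas (Cn n) X) {x : X} (hx : x ∈ e.source ∩ e'.source) :
    jac (e ∘ e'.symm) (e' x) * jac (e' ∘ e.symm) (e x) = 1 := by
  have h1 := (transition_contDiffAt he he' hx).differentiableAt (by simp)
  have h2 := (transition_contDiffAt he' he ⟨hx.2, hx.1⟩).differentiableAt (by simp)
  have h3 : (e' ∘ e.symm) (e x) = e' x := by simp [e.left_inv hx.1]
  have h4 := jac_comp (f := e ∘ e'.symm) (g := e' ∘ e.symm) (a := e x) (by rw [h3]; exact h2) h1
  rw [h3] at h4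
  rw [← h4, jac_congr (transition_inv hx), jac_id']

lemma transition_jac_ne_zero {e e' : OpenPartialHomeomorph X (Cn n)} (he : e ∈ atlas (Cn n) X)
    (he' : e' ∈ atlas (Cn n) X) {x : X} (hx : x ∈ e.source ∩ e'.source) :
    jac (e' ∘ e.symm) (e x) ≠ 0 := by
  intro h
  have := transition_jac_mul he he' hx
  rw [h, mul_zero] at this
  exact zero_ne_one this

end manifoldX

section map
variable [IsManifold 𝓘(ℂ, Cn n) ω X] [IsManifold 𝓘(ℂ, Cn n) ω D] {p : D → X}

/-- A map read in charts. -/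
lemma localMap_contDiffAt {z : D} (hp : ContMDiffAt 𝓘(ℂ, Cn n) 𝓘(ℂ, Cn n) ω p z)
    {e : OpenPartialHomeomorph X (Cn n)} (he : e ∈ atlas (Cn n) X)
    {d : OpenPartialHomeomorph D (Cn n)} (hd : d ∈ atlas (Cn n) D) (hz : z ∈ d.source)
    (hpz : p z ∈ e.source) : ContDiffAt ℂ ω (e ∘ p ∘ d.symm) (d z) := by
  rw [← contMDiffAt_iff_contDiffAt]
  have h1 := chart_symm_contMDiffAt hd (d.map_source hz)
  have h2 : ContMDiffAt 𝓘(ℂ, Cn n) 𝓘(ℂ, Cn n) ω p (d.symm (d z)) := by
    rw [d.left_inv hz]; exact hp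
  have h3 : ContMDiffAt 𝓘(ℂ, Cn n) 𝓘(ℂ, Cn n) ω e ((p ∘ d.symm) (d z)) := by
    simp only [Function.comp_apply, d.left_inv hz]
    exact chart_contMDiffAt he hpz
  exact h3.comp (d z) (h2.comp (d z) h1)

/-- Existence of an analytic local inverse of `p` read in charts. -/
lemma exists_localInverse (hp : IsLocalDiffeomorph 𝓘(ℂ, Cn n) 𝓘(ℂ, Cn n) ω p) (z : D)
    {e : OpenPartialHomeomorph X (Cn n)} (he : e ∈ atlas (Cn n) X)
    {d : OpenPartialHomeomorph D (Cn n)} (hd : d ∈ atlas (Cn n) D) (hz : z ∈ d.source)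
    (hpz : p z ∈ e.source) :
    ∃ v : Cn n → Cn n, ContDiffAt ℂ ω v (e (p z)) ∧
      (∀ᶠ a in 𝓝 (d z), v ((e ∘ p ∘ d.symm) a) = a) := by
  obtain ⟨Φ, hzΦ, heq⟩ := hp z
  have hinv : ContMDiffAt 𝓘(ℂ, Cn n) 𝓘(ℂ, Cn n) ω Φ.symm (p z) := by
    have h := Φ.symm.contMDiffOn_toFun
    have hm : p z ∈ Φ.symm.source := by
      rw [heq hzΦ]
      exact Φ.map_source' hzΦ
    exact h.contMDiffAt (Φ.symm.open_source.mem_nhds hm)
  have hΦz : Φ.symm (p z) = z := by
    rw [heq hzΦ]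
    exact Φ.left_inv' hzΦ
  refine ⟨d ∘ Φ.symm ∘ e.symm, ?_, ?_⟩
  · rw [← contMDiffAt_iff_contDiffAt]
    have h1 := chart_symm_contMDiffAt he (e.map_source hpz)
    have h2 : ContMDiffAt 𝓘(ℂ, Cn n) 𝓘(ℂ, Cn n) ω Φ.symm (e.symm (e (p z))) := by
      rw [e.left_inv hpz]; exact hinv
    have h3 : ContMDiffAt 𝓘(ℂ, Cn n) 𝓘(ℂ, Cn n) ω d ((Φ.symm ∘ e.symm) (e (p z))) := by
      simp only [Function.comp_apply, e.left_inv hpz, hΦz]
      exact chart_contMDiffAt hd hz
    exact h3.comp _ (h2.comp _ h1)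
  · have c0 : ContinuousAt d.symm (d z) := d.continuousAt_symm (d.map_source hz)
    have c1 : ∀ᶠ a in 𝓝 (d z), d.symm a ∈ Φ.source :=
      c0.eventually (Φ.open_source.mem_nhds (by rw [d.left_inv hz]; exact hzΦ))
    have c2 : ∀ᶠ a in 𝓝 (d z), a ∈ d.target := d.open_target.mem_nhds (d.map_source hz)
    have c3 : ∀ᶠ a in 𝓝 (d z), p (d.symm a) ∈ e.source := by
      have hc : ContinuousAt p (d.symm (d z)) := by
        rw [d.left_inv hz]; exact (hp.contMDiff z).continuousAt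
      have : ContinuousAt (p ∘ d.symm) (d z) := hc.comp c0
      exact this.eventually (e.open_source.mem_nhds (by
        simp only [Function.comp_apply, d.left_inv hz]; exact hpz))
    filter_upwards [c1, c2, c3] with a h1 h2 h3
    simp only [Function.comp_apply]
    rw [e.left_inv h3, heq h1]
    have : Φ.symm (Φ (d.symm a)) = d.symm a := Φ.left_inv' h1
    rw [this, d.right_inv h2]

lemma localMap_jac_ne_zero (hp : IsLocalDiffeomorph 𝓘(ℂ, Cn n) 𝓘(ℂ, Cn n) ω p) {z : D}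
    {e : OpenPartialHomeomorph X (Cn n)} (he : e ∈ atlas (Cn n) X)
    {d : OpenPartialHomeomorph D (Cn n)} (hd : d ∈ atlas (Cn n) D) (hz : z ∈ d.source)
    (hpz : p z ∈ e.source) : jac (e ∘ p ∘ d.symm) (d z) ≠ 0 := by
  obtain ⟨v, hv, hinv⟩ := exists_localInverse hp z he hd hz hpz
  have h1 := (localMap_contDiffAt (hp.contMDiff z) he hd hz hpz).differentiableAt (by simp)
  have h2 := hv.differentiableAt (by simp)
  have h3 : (e ∘ p ∘ d.symm) (d z) = e (p z) := by simp [d.left_inv hz]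
  have h4 := jac_comp (f := v) (g := e ∘ p ∘ d.symm) (a := d z) (by rw [h3]; exact h2) h1
  have h5 : v ∘ (e ∘ p ∘ d.symm) =ᶠ[𝓝 (d z)] id := by
    filter_upwards [hinv] with a ha
    exact ha
  rw [jac_congr h5, jac_id'] at h4
  intro h0
  rw [h0, mul_zero] at h4
  exact one_ne_zero h4

/-- The lifted coefficient can be computed in any chart of `D`. -/
lemma liftCoeff_eq (hp : IsLocalDiffeomorph 𝓘(ℂ, Cn n) 𝓘(ℂ, Cn n) ω p) (s : PluriForm n m D)
    {z : D} {e : OpenPartialHomeomorph X (Cn n)} (he : e ∈ atlas (Cn n) X)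
    {d : OpenPartialHomeomorph D (Cn n)} (hd : d ∈ atlas (Cn n) D) (hz : z ∈ d.source)
    (hpz : p z ∈ e.source) :
    liftCoeff s p e z = s.coeff d (d z) / jac (e ∘ p ∘ d.symm) (d z) ^ m := by
  set d0 := chartAt (Cn n) z with hd0
  have hd0m : d0 ∈ atlas (Cn n) D := chart_mem_atlas _ _
  have hz0 : z ∈ d0.source := mem_chart_source _ _
  have h1 : s.coeff d0 (d0 z) = s.coeff d (d z) * jac (d ∘ d0.symm) (d0 z) ^ m :=
    s.change d0 hd0m d hd z ⟨hz0, hz⟩
  have h2 : jac (e ∘ p ∘ d0.symm) (d0 z) =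
      jac (e ∘ p ∘ d.symm) (d z) * jac (d ∘ d0.symm) (d0 z) := by
    have hq := (localMap_contDiffAt (hp.contMDiff z) he hd hz hpz).differentiableAt (by simp)
    have ht := (transition_contDiffAt hd0m hd ⟨hz0, hz⟩).differentiableAt (by simp)
    have h3 : (d ∘ d0.symm) (d0 z) = d z := by simp [d0.left_inv hz0]
    have h4 := jac_comp (f := e ∘ p ∘ d.symm) (g := d ∘ d0.symm) (a := d0 z) (by rw [h3]; exact hq) ht
    rw [h3] at h4
    rw [← h4]
    apply jac_congr
    have c1 : ∀ᶠ a in 𝓝 (d0 z), d0.symm a ∈ d.source :=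
      (d0.continuousAt_symm (d0.map_source hz0)).eventually
        (d.open_source.mem_nhds (by rw [d0.left_inv hz0]; exact hz))
    filter_upwards [c1] with a ha
    simp [d.left_inv ha]
  have h5 := transition_jac_ne_zero hd0m hd ⟨hz0, hz⟩
  have h6 := localMap_jac_ne_zero hp he hd hz hpz
  unfold liftCoeff
  rw [← hd0, h1, h2, mul_pow]
  field_simp

lemma liftCoeff_change (hp : IsLocalDiffeomorph 𝓘(ℂ, Cn n) 𝓘(ℂ, Cn n) ω p) (s : PluriForm n m D)
    {z : D} {e e' : OpenPartialHomeomorph X (Cn n)} (he : e ∈ atlas (Cn n) X)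
    (he' : e' ∈ atlas (Cn n) X) (hpz : p z ∈ e.source ∩ e'.source) :
    liftCoeff s p e z = liftCoeff s p e' z * jac (e' ∘ e.symm) (e (p z)) ^ m := by
  set d := chartAt (Cn n) z with hd0
  have hd : d ∈ atlas (Cn n) D := chart_mem_atlas _ _
  have hz : z ∈ d.source := mem_chart_source _ _
  rw [liftCoeff_eq hp s he hd hz hpz.1, liftCoeff_eq hp s he' hd hz hpz.2]
  have h2 : jac (e' ∘ p ∘ d.symm) (d z) =
      jac (e' ∘ e.symm) (e (p z)) * jac (e ∘ p ∘ d.symm) (d z) := by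
    have hq := (localMap_contDiffAt (hp.contMDiff z) he hd hz hpz.1).differentiableAt (by simp)
    have ht := (transition_contDiffAt he he' hpz).differentiableAt (by simp)
    have h3 : (e ∘ p ∘ d.symm) (d z) = e (p z) := by simp [d.left_inv hz]
    have h4 := jac_comp (f := e' ∘ e.symm) (g := e ∘ p ∘ d.symm) (a := d z)
      (by rw [h3]; exact ht) hq
    rw [h3] at h4
    rw [← h4]
    apply jac_congr
    have c0 : ContinuousAt d.symm (d z) := d.continuousAt_symm (d.map_source hz)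
    have c3 : ∀ᶠ a in 𝓝 (d z), p (d.symm a) ∈ e.source := by
      have hc : ContinuousAt p (d.symm (d z)) := by
        rw [d.left_inv hz]; exact (hp.contMDiff z).continuousAt
      have : ContinuousAt (p ∘ d.symm) (d z) := hc.comp c0
      exact this.eventually (e.open_source.mem_nhds (by
        simp only [Function.comp_apply, d.left_inv hz]; exact hpz.1))
    filter_upwards [c3] with a ha
    simp [e.left_inv ha]
  have h5 := transition_jac_ne_zero he he' hpz
  have h6 := localMap_jac_ne_zero hp he hd hz hpz.1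
  rw [h2, mul_pow]
  field_simp

end map

section branches

/-- A family of local branches of the inverse of the covering `p`, over a ball of a chart. -/
structure Branches (n : ℕ) {D X : Type*} [TopologicalSpace D] [ChartedSpace (Cn n) D]
    [TopologicalSpace X] [ChartedSpace (Cn n) X] (p : D → X)
    (e : OpenPartialHomeomorph X (Cn n)) (w0 : Cn n) (R : ℝ) (I : Type*) where
  br : I → Cn n → D
  sub : ball w0 R ⊆ e.target
  cont : ∀ i, ContinuousOn (br i) (ball w0 R)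
  proj : ∀ i, ∀ w ∈ ball w0 R, p (br i w) = e.symm w
  bij : ∀ w ∈ ball w0 R, ∀ z, p z = e.symm w → ∃! i, br i w = z

lemma exists_branches {p : D → X} (hp : IsCoveringMap p) {e : OpenPartialHomeomorph X (Cn n)}
    {x0 : X} (hx0 : x0 ∈ e.source) :
    ∃ R : ℝ, 0 < R ∧ Nonempty (Branches n p e (e x0) R (p ⁻¹' {x0})) := by
  classical
  obtain ⟨_, U, hxU, hU, hpU, H, hH⟩ := hp x0
  have hW : IsOpen (e.target ∩ e.symm ⁻¹' U) := e.symm.isOpen_inter_preimage hU
  have hmem : e x0 ∈ e.target ∩ e.symm ⁻¹' U :=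
    ⟨e.map_source hx0, by simpa [e.left_inv hx0] using hxU⟩
  obtain ⟨R, hR, hball⟩ := Metric.isOpen_iff.mp hW _ hmem
  refine ⟨R, hR, ⟨{
    br := fun i w => if h : e.symm w ∈ U then (H.symm (⟨e.symm w, h⟩, i)).1 else i.1
    sub := fun w hw => (hball hw).1
    cont := ?_
    proj := ?_
    bij := ?_ }⟩⟩
  · intro i
    have hc : ContinuousOn e.symm (ball (e x0) R) :=
      e.continuousOn_symm.mono fun w hw => (hball hw).1
    rw [continuousOn_iff_continuous_domRestrict] at hc ⊢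
    have : (ball (e x0) R).domRestrict
        (fun w => if h : e.symm w ∈ U then (H.symm (⟨e.symm w, h⟩, i)).1 else i.1) =
        fun w => (H.symm (⟨e.symm w.1, (hball w.2).2⟩, i)).1 := by
      ext w
      rw [domRestrict_apply, dif_pos (show e.symm w.1 ∈ U from (hball w.2).2)]
    rw [this]
    apply continuous_subtype_val.comp
    apply H.symm.continuous.comp
    apply Continuous.prodMk
    · exact Continuous.subtype_mk hc _
    · exact continuous_const
  · intro i w hw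
    have h : e.symm w ∈ U := (hball hw).2
    simp only [dif_pos h]
    rw [← hH]
    simp
  · intro w hw z hz
    have h : e.symm w ∈ U := (hball hw).2
    have hzU : z ∈ p ⁻¹' U := by
      show p z ∈ U
      rw [hz]; exact h
    refine ⟨(H ⟨z, hzU⟩).2, ?_, ?_⟩
    · simp only [dif_pos h]
      have : ((⟨e.symm w, h⟩ : U), (H ⟨z, hzU⟩).2) = H ⟨z, hzU⟩ := by
        apply Prod.ext
        · apply Subtype.ext
          simp only
          rw [hH]
          exact hz.symm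
        · rfl
      rw [this]
      simp
    · intro j hj
      simp only [dif_pos h] at hj
      have : H.symm (⟨e.symm w, h⟩, j) = ⟨z, hzU⟩ := Subtype.ext hj
      rw [← this]
      simp

end branches

end Vale.Agent.P272
end
end
end

section

section

open scoped Manifold ContDiff Topology
open MeasureTheory Set Filter Metric

noncomputable section

namespace Vale.Agent.P272

variable {n m : ℕ} {D X : Type*} [TopologicalSpace D] [ChartedSpace (Cn n) D]
  [TopologicalSpace X] [ChartedSpace (Cn n) X]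

lemma contDiffAt_jac {f : Cn n → Cn n} {a : Cn n} (hf : ContDiffAt ℂ ω f a) :
    ContDiffAt ℂ ω (jac f) a := by
  have h1 : ContDiffAt ℂ ω (fderiv ℂ f) a := hf.fderiv_right (m := ω) (by exact le_top)
  have h3 : jac f = fun z => ∑ σ : Equiv.Perm (Fin n), (Equiv.Perm.sign σ : ℂ) *
      ∏ i, (fderiv ℂ f z (EuclideanSpace.single i (1 : ℂ))) (σ i) := by
    funext z
    unfold jac
    rw [clm_det_eq, Matrix.det_apply']
    rfl
  rw [h3]
  have h4 : ∀ i j : Fin n, ContDiffAt ℂ ω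
      (fun z => (fderiv ℂ f z (EuclideanSpace.single i (1 : ℂ))) j) a := by
    intro i j
    have h5 : ContDiffAt ℂ ω (fun z => fderiv ℂ f z (EuclideanSpace.single i (1 : ℂ))) a :=
      h1.clm_apply contDiffAt_const
    exact (EuclideanSpace.proj j : Cn n →L[ℂ] ℂ).contDiff.contDiffAt.comp a h5
  refine ContDiffAt.sum fun σ _ => ?_
  refine contDiffAt_const.mul ?_
  exact contDiffAt_prod fun i _ => h4 i (σ i)

lemma holAt_of_contDiffAt {H : Type*} [NormedAddCommGroup H] [InnerProductSpace ℂ H]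
    {f : Cn n → H} {a : Cn n} (hf : ContDiffAt ℂ ω f a) : HolAt f a where
  smooth := (hf.restrict_scalars ℝ).of_le (by exact le_top)
  cr := by
    filter_upwards [hf.eventually (by simp)] with w hw η
    exact cr_of_differentiableAt (hw.differentiableAt (by simp)) η

namespace Branches

variable {p : D → X} {e : OpenPartialHomeomorph X (Cn n)} {w0 : Cn n} {R : ℝ} {I : Type*}

/-- fibres are indexed by branches -/
def fiberEquiv (B : Branches n p e w0 R I) {w : Cn n} (hw : w ∈ ball w0 R) :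
    I ≃ p ⁻¹' {e.symm w} :=
  Equiv.ofBijective (fun i => ⟨B.br i w, B.proj i w hw⟩) (by
    constructor
    · intro i j hij
      have h := congrArg Subtype.val hij
      obtain ⟨k, _, hk⟩ := B.bij w hw (B.br i w) (B.proj i w hw)
      exact (hk i rfl).trans (hk j h.symm).symm
    · rintro ⟨z, hz⟩
      obtain ⟨k, hk, _⟩ := B.bij w hw z hz
      exact ⟨k, Subtype.ext hk⟩)

/-- Shrink the ball. -/
def shrink (B : Branches n p e w0 R I) {R' : ℝ} (h : R' ≤ R) : Branches n p e w0 R' I where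
  br := B.br
  sub := (ball_subset_ball h).trans B.sub
  cont := fun i => (B.cont i).mono (ball_subset_ball h)
  proj := fun i w hw => B.proj i w (ball_subset_ball h hw)
  bij := fun w hw => B.bij w (ball_subset_ball h hw)

variable [IsManifold 𝓘(ℂ, Cn n) ω X] [IsManifold 𝓘(ℂ, Cn n) ω D]

lemma coord (B : Branches n p e w0 R I) (hp : IsLocalDiffeomorph 𝓘(ℂ, Cn n) 𝓘(ℂ, Cn n) ω p)
    (he : e ∈ atlas (Cn n) X) (i : I) {w1 : Cn n} (hw1 : w1 ∈ ball w0 R)
    {d : OpenPartialHomeomorph D (Cn n)} (hd : d ∈ atlas (Cn n) D) (hz : B.br i w1 ∈ d.source) :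
    ContDiffAt ℂ ω (fun w => d (B.br i w)) w1 ∧ (∀ᶠ w in 𝓝 w1, B.br i w ∈ d.source) ∧
      (∀ᶠ w in 𝓝 w1, (e ∘ p ∘ d.symm) (d (B.br i w)) = w) := by
  have hpz : p (B.br i w1) ∈ e.source := by
    rw [B.proj i w1 hw1]
    exact e.map_target (B.sub hw1)
  have hepz : e (p (B.br i w1)) = w1 := by
    rw [B.proj i w1 hw1, e.right_inv (B.sub hw1)]
  have hcont : ContinuousAt (B.br i) w1 := (B.cont i).continuousAt (isOpen_ball.mem_nhds hw1)
  have h1 : ∀ᶠ w in 𝓝 w1, B.br i w ∈ d.source := hcont.eventually (d.open_source.mem_nhds hz)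
  have h2 : ∀ᶠ w in 𝓝 w1, (e ∘ p ∘ d.symm) (d (B.br i w)) = w := by
    filter_upwards [h1, isOpen_ball.mem_nhds hw1] with w hw hwb
    simp only [Function.comp_apply]
    rw [d.left_inv hw, B.proj i w hwb, e.right_inv (B.sub hwb)]
  obtain ⟨v, hv, hinv⟩ := exists_localInverse hp (B.br i w1) he hd hz hpz
  rw [hepz] at hv
  refine ⟨?_, h1, h2⟩
  refine hv.congr_of_eventuallyEq ?_
  have hc : ContinuousAt (fun w => d (B.br i w)) w1 :=
    ContinuousAt.comp (g := d) (d.continuousAt hz) hcont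
  filter_upwards [hc.eventually hinv, h2] with w ha hb
  rw [← ha, hb]

lemma holo (B : Branches n p e w0 R I) (hp : IsLocalDiffeomorph 𝓘(ℂ, Cn n) 𝓘(ℂ, Cn n) ω p)
    (he : e ∈ atlas (Cn n) X) (s : PluriForm n m D) (i : I) :
    DifferentiableOn ℂ (fun w => liftCoeff s p e (B.br i w)) (ball w0 R) := by
  intro w1 hw1
  apply DifferentiableAt.differentiableWithinAt
  set d := chartAt (Cn n) (B.br i w1) with hd0
  have hd : d ∈ atlas (Cn n) D := chart_mem_atlas _ _
  have hz : B.br i w1 ∈ d.source := mem_chart_source _ _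
  have hpz : p (B.br i w1) ∈ e.source := by
    rw [B.proj i w1 hw1]
    exact e.map_target (B.sub hw1)
  obtain ⟨hb, h1, h2⟩ := B.coord hp he i hw1 hd hz
  have hb1 := hb.differentiableAt (by simp)
  have hev : (fun w => liftCoeff s p e (B.br i w)) =ᶠ[𝓝 w1]
      fun w => s.coeff d (d (B.br i w)) / jac (e ∘ p ∘ d.symm) (d (B.br i w)) ^ m := by
    filter_upwards [h1, isOpen_ball.mem_nhds hw1] with w hw hwb
    refine liftCoeff_eq hp s he hd hw ?_
    rw [B.proj i w hwb]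
    exact e.map_target (B.sub hwb)
  refine DifferentiableAt.congr_of_eventuallyEq ?_ hev
  have hq := localMap_contDiffAt (hp.contMDiff (B.br i w1)) he hd hz hpz
  have hj := differentiableAt_jac hq
  have hj0 := localMap_jac_ne_zero hp he hd hz hpz
  have hs : DifferentiableAt ℂ (s.coeff d) (d (B.br i w1)) :=
    (s.holo d hd).differentiableAt (d.open_target.mem_nhds (d.map_source hz))
  have a1 : DifferentiableAt ℂ (fun w => s.coeff d (d (B.br i w))) w1 :=
    DifferentiableAt.comp (g := s.coeff d) w1 hs hb1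
  have a2 : DifferentiableAt ℂ (fun w => jac (e ∘ p ∘ d.symm) (d (B.br i w))) w1 :=
    DifferentiableAt.comp (g := jac (e ∘ p ∘ d.symm)) w1 hj hb1
  have a3 : DifferentiableAt ℂ (fun w => jac (e ∘ p ∘ d.symm) (d (B.br i w)) ^ m) w1 := a2.pow m
  have h0 : (fun w => jac (e ∘ p ∘ d.symm) (d (B.br i w)) ^ m) w1 ≠ 0 := pow_ne_zero m hj0
  simp only [div_eq_mul_inv]
  exact a1.mul (a3.inv h0)

lemma psh (B : Branches n p e w0 R I) (hp : IsLocalDiffeomorph 𝓘(ℂ, Cn n) 𝓘(ℂ, Cn n) ω p)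
    (he : e ∈ atlas (Cn n) X) {ρ : D → ℝ} (hρ : StrictlyPSH n ρ) (i : I) {w1 : Cn n}
    (hw1 : w1 ∈ ball w0 R) :
    ContDiffAt ℝ ∞ (fun w => ρ (B.br i w)) w1 ∧
      ∀ ξ : Cn n, ξ ≠ 0 → 0 < levi (fun w => ρ (B.br i w)) w1 ξ := by
  set d := chartAt (Cn n) (B.br i w1) with hd0
  have hd : d ∈ atlas (Cn n) D := chart_mem_atlas _ _
  have hz : B.br i w1 ∈ d.source := mem_chart_source _ _
  have hpz : p (B.br i w1) ∈ e.source := by
    rw [B.proj i w1 hw1]
    exact e.map_target (B.sub hw1)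
  obtain ⟨hb, h1, h2⟩ := B.coord hp he i hw1 hd hz
  have hev : (fun w => ρ (B.br i w)) =ᶠ[𝓝 w1] fun w => (ρ ∘ d.symm) (d (B.br i w)) := by
    filter_upwards [h1] with w hw
    simp [d.left_inv hw]
  have hρ1 : ContDiffAt ℝ ∞ (ρ ∘ d.symm) (d (B.br i w1)) :=
    (hρ d hd).1.contDiffAt (d.open_target.mem_nhds (d.map_source hz))
  have hbR : ContDiffAt ℝ ∞ (fun w => d (B.br i w)) w1 :=
    (hb.restrict_scalars ℝ).of_le (by exact le_top)
  have hcomp : ContDiffAt ℝ ∞ (fun w => (ρ ∘ d.symm) (d (B.br i w))) w1 :=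
    ContDiffAt.comp (g := ρ ∘ d.symm) w1 hρ1 hbR
  refine ⟨hcomp.congr_of_eventuallyEq hev, fun ξ hξ => ?_⟩
  have hH := holAt_of_contDiffAt hb
  rw [levi_congr hev, levi_comp_holo (f := ρ ∘ d.symm) (T := fun w => d (B.br i w))
    (hρ1.of_le two_le_infty) hH.smooth hH.cr]
  apply (hρ d hd).2 _ (d.map_source hz)
  intro h0
  apply hξ
  -- differentiate `q ∘ b = id`
  have hq := (localMap_contDiffAt (hp.contMDiff (B.br i w1)) he hd hz hpz).differentiableAt
    (by simp)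
  have hqR : DifferentiableAt ℝ (e ∘ p ∘ d.symm) (d (B.br i w1)) := hq.restrictScalars ℝ
  have hb1 : DifferentiableAt ℝ (fun w => d (B.br i w)) w1 := hbR.differentiableAt (by simp)
  have hch := (hqR.hasFDerivAt.comp w1 hb1.hasFDerivAt)
  have hid : HasFDerivAt (fun w => (e ∘ p ∘ d.symm) (d (B.br i w)))
      (ContinuousLinearMap.id ℝ (Cn n)) w1 := by
    refine (hasFDerivAt_id w1).congr_of_eventuallyEq ?_
    filter_upwards [h2] with w hw
    exact hw
  have huniq := hch.unique hid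
  have := congrArg (fun A => A ξ) huniq
  simp only [ContinuousLinearMap.comp_apply, ContinuousLinearMap.id_apply] at this
  rw [h0, map_zero] at this
  exact this.symm

end Branches

end Vale.Agent.P272
end
end
end

section

section

open scoped Manifold ContDiff Topology
open MeasureTheory Set Filter Metric

noncomputable section

namespace Vale.Agent.P272

variable {n m : ℕ} {D X : Type*} [TopologicalSpace D] [ChartedSpace (Cn n) D]
  [TopologicalSpace X] [ChartedSpace (Cn n) X]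

/-- sum over a fibre of the squared coefficients -/
def SV {κ : Type*} (s : κ → PluriForm n m D) (p : D → X) (e : OpenPartialHomeomorph X (Cn n))
    (x : X) : ℝ :=
  ∑' q : κ × (p ⁻¹' {x}), ‖liftCoeff (s q.1) p e q.2‖ ^ 2

def ratio {κ : Type*} (s : κ → PluriForm n m D) (p : D → X) (e : OpenPartialHomeomorph X (Cn n))
    (k : κ) (z : D) : ℝ :=
  ‖liftCoeff (s k) p e z‖ ^ 2 / SV s p e (p z)

def ψg {κ : Type*} (s : κ → PluriForm n m D) (p : D → X) (ρ : D → ℝ) (δ : ℝ) (x : X) : ℝ :=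
  ∑' q : κ × (p ⁻¹' {x}), cut δ (ratio s p (chartAt (Cn n) x) q.1 q.2) * ρ q.2

section
variable [IsManifold 𝓘(ℂ, Cn n) ω X] [IsManifold 𝓘(ℂ, Cn n) ω D] {p : D → X}
  {κ : Type*} {s : κ → PluriForm n m D}

lemma SV_change (hp : IsLocalDiffeomorph 𝓘(ℂ, Cn n) 𝓘(ℂ, Cn n) ω p)
    {e e' : OpenPartialHomeomorph X (Cn n)} (he : e ∈ atlas (Cn n) X)
    (he' : e' ∈ atlas (Cn n) X) {x : X} (hx : x ∈ e.source ∩ e'.source) :
    SV s p e x = SV s p e' x * (‖jac (e' ∘ e.symm) (e x)‖ ^ 2) ^ m := by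
  unfold SV
  rw [← tsum_mul_right]
  apply tsum_congr
  rintro ⟨k, ⟨z, hz⟩⟩
  have hz' : p z = x := hz
  have : p z ∈ e.source ∩ e'.source := by rw [hz']; exact hx
  simp only
  rw [liftCoeff_change hp (s k) he he' this, hz', norm_mul, norm_pow, mul_pow]
  ring

lemma ratio_change (hp : IsLocalDiffeomorph 𝓘(ℂ, Cn n) 𝓘(ℂ, Cn n) ω p)
    {e e' : OpenPartialHomeomorph X (Cn n)} (he : e ∈ atlas (Cn n) X)
    (he' : e' ∈ atlas (Cn n) X) {z : D} (hz : p z ∈ e.source ∩ e'.source) (k : κ) :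
    ratio s p e k z = ratio s p e' k z := by
  unfold ratio
  rw [SV_change hp he he' hz, liftCoeff_change hp (s k) he he' hz, norm_mul, norm_pow, mul_pow]
  have h := transition_jac_ne_zero he he' hz
  have h' : ‖jac (e' ∘ e.symm) (e (p z))‖ ≠ 0 := norm_ne_zero_iff.mpr h
  rw [← pow_mul, ← pow_mul, mul_comm m 2]
  rw [mul_div_mul_right]
  positivity

lemma ψg_eq (hp : IsLocalDiffeomorph 𝓘(ℂ, Cn n) 𝓘(ℂ, Cn n) ω p) {ρ : D → ℝ} {δ : ℝ}
    {e : OpenPartialHomeomorph X (Cn n)} (he : e ∈ atlas (Cn n) X) {x : X} (hx : x ∈ e.source) :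
    ψg s p ρ δ x = ∑' q : κ × (p ⁻¹' {x}), cut δ (ratio s p e q.1 q.2) * ρ q.2 := by
  unfold ψg
  apply tsum_congr
  rintro ⟨k, ⟨z, hz⟩⟩
  have hz' : p z = x := hz
  simp only
  rw [ratio_change hp (chart_mem_atlas _ _) he]
  rw [hz']
  exact ⟨mem_chart_source _ _, hx⟩

/-- nonvanishing of a form at a point, read through `p` -/
lemma liftCoeff_ne_zero (hp : IsLocalDiffeomorph 𝓘(ℂ, Cn n) 𝓘(ℂ, Cn n) ω p)
    {t : PluriForm n m D} {z : D}
    (ht : t.coeff (chartAt (Cn n) z) (chartAt (Cn n) z z) ≠ 0)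
    {e : OpenPartialHomeomorph X (Cn n)} (he : e ∈ atlas (Cn n) X) (hz : p z ∈ e.source) :
    liftCoeff t p e z ≠ 0 := by
  unfold liftCoeff
  exact div_ne_zero ht (pow_ne_zero m
    (localMap_jac_ne_zero hp he (chart_mem_atlas _ _) (mem_chart_source _ _) hz))

lemma coeff_ne_zero (t : PluriForm n m D) (p : D → X) {z : D}
    {e : OpenPartialHomeomorph X (Cn n)} (h : liftCoeff t p e z ≠ 0) :
    t.coeff (chartAt (Cn n) z) (chartAt (Cn n) z z) ≠ 0 := by
  intro h0
  apply h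
  unfold liftCoeff
  rw [h0, zero_div]

namespace Branches
variable {e : OpenPartialHomeomorph X (Cn n)} {w0 : Cn n} {R : ℝ} {I : Type*}

lemma bound (B : Branches n p e w0 R I) (hp : IsLocalDiffeomorph 𝓘(ℂ, Cn n) 𝓘(ℂ, Cn n) ω p)
    (he : e ∈ atlas (Cn n) X) {t : PluriForm n m D} (ht : SquareIntegrable t p)
    {r r' : ℝ} (h1 : r' < r) (h2 : r < R) :
    ∃ u : I → ℝ, Summable u ∧
      ∀ i, ∀ w ∈ closedBall w0 r', ‖liftCoeff t p e (B.br i w)‖ ^ 2 ≤ u i := by
  apply exists_summable_bound (fun i w => liftCoeff t p e (B.br i w)) w0 h1 h2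
    (fun i => B.holo hp he t i)
  have hsub : closedBall w0 r ⊆ ball w0 R := closedBall_subset_ball h2
  have := ht e he (closedBall w0 r) (hsub.trans B.sub) (isCompact_closedBall _ _)
  refine lt_of_eq_of_lt ?_ this
  apply setLIntegral_congr_fun measurableSet_closedBall
  intro w hw
  simp only
  exact (B.fiberEquiv (hsub hw)).tsum_eq (fun z => ‖liftCoeff t p e z‖ₑ ^ 2)

end Branches

/-- local data adapted to a chart and a finite family of square integrable forms -/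
structure Adapted (n : ℕ) {m : ℕ} {D X : Type*} [TopologicalSpace D] [ChartedSpace (Cn n) D]
    [TopologicalSpace X] [ChartedSpace (Cn n) X] {κ : Type*} (s : κ → PluriForm n m D)
    (p : D → X) (ρ : D → ℝ) (e : OpenPartialHomeomorph X (Cn n)) (w0 : Cn n) (R : ℝ)
    (I : Type*) where
  B : Branches n p e w0 R I
  L : LocalData n (κ × I) w0 R
  g_eq : ∀ q w, L.g q w = liftCoeff (s q.1) p e (B.br q.2 w)
  ρ_eq : ∀ q w, L.ρ q w = ρ (B.br q.2 w)

lemma exists_adapted [Finite κ] (hp : HolCovering n p) {ρ : D → ℝ} (hρ : StrictlyPSH n ρ)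
    (hL2 : ∀ k, SquareIntegrable (s k) p)
    (hpos : ∀ x : X, ∃ k, ∃ z : D, p z = x ∧
      (s k).coeff (chartAt (Cn n) z) (chartAt (Cn n) z z) ≠ 0)
    {e : OpenPartialHomeomorph X (Cn n)} (he : e ∈ atlas (Cn n) X) {x0 : X}
    (hx0 : x0 ∈ e.source) :
    ∃ R : ℝ, 0 < R ∧ Nonempty (Adapted n s p ρ e (e x0) R (p ⁻¹' {x0})) := by
  obtain ⟨R, hR, ⟨B⟩⟩ := exists_branches (n := n) hp.covering hx0
  have hloc := hp.localBihol
  choose u hu hub using fun k => B.bound hloc he (hL2 k) (r' := R / 2) (r := 3 * R / 4)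
    (by linarith) (by linarith)
  set U : κ × (p ⁻¹' {x0}) → ℝ := fun q => u q.1 q.2 with hU
  have hu0 : ∀ k i, 0 ≤ u k i := fun k i =>
    le_trans (by positivity) (hub k i (e x0) (mem_closedBall_self (by linarith)))
  have hUs : Summable U := by
    rw [summable_prod_of_nonneg (fun q => hu0 q.1 q.2)]
    have := Fintype.ofFinite κ
    exact ⟨fun k => hu k, (hasSum_fintype _).summable⟩
  set g : κ × (p ⁻¹' {x0}) → Cn n → ℂ := fun q w => liftCoeff (s q.1) p e (B.br q.2 w) with hg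
  have hgholo : ∀ q, DifferentiableOn ℂ (g q) (ball (e x0) R) := fun q =>
    B.holo hloc he (s q.1) q.2
  have hgb : ∀ q, ∀ w ∈ closedBall (e x0) (R / 2), ‖g q w‖ ^ 2 ≤ U q := fun q w hw =>
    hub q.1 q.2 w hw
  obtain ⟨G, hG1, hG2⟩ := smooth_lift_of_bound g (e x0) (R := R) (s := R / 2) (r' := R / 4)
    (by linarith) (by linarith) hgholo hUs hgb
  have hsub : ball (e x0) (R / 4) ⊆ ball (e x0) R := ball_subset_ball (by linarith)
  have hsub2 : ball (e x0) (R / 4) ⊆ closedBall (e x0) (R / 2) :=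
    (ball_subset_ball (by linarith)).trans ball_subset_closedBall
  refine ⟨R / 4, by linarith, ⟨{
    B := B.shrink (by linarith)
    L := {
      g := g
      G := G
      ρ := fun q w => ρ (B.br q.2 w)
      u := U
      holo := fun q => (hgholo q).mono hsub
      smooth := hG1
      coord := hG2
      summ := hUs
      bound := fun q w hw => hgb q w (hsub2 hw)
      ne := ?_
      ρsmooth := fun q w hw => (B.psh hloc he hρ q.2 (hsub hw)).1.contDiffWithinAt
      ρpsh := fun q w hw => (B.psh hloc he hρ q.2 (hsub hw)).2 }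
    g_eq := fun q w => rfl
    ρ_eq := fun q w => rfl }⟩⟩
  intro w hw h0
  obtain ⟨k, z, hz, hne⟩ := hpos (e.symm w)
  obtain ⟨i, hi, _⟩ := B.bij w (hsub hw) z hz
  have h1 : liftCoeff (s k) p e z ≠ 0 := by
    apply liftCoeff_ne_zero hloc hne he
    rw [hz]
    exact e.map_target (B.sub (hsub hw))
  apply h1
  have h2 := hG2 w hw (k, i)
  rw [h0] at h2
  rw [hg] at h2
  simp only at h2
  rw [hi] at h2
  exact h2.symm

namespace Adapted

variable {ρ : D → ℝ} {e : OpenPartialHomeomorph X (Cn n)} {w0 : Cn n} {R : ℝ} {I : Type*}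

omit [IsManifold 𝓘(ℂ, Cn n) ω X] [IsManifold 𝓘(ℂ, Cn n) ω D] in
lemma V_eq (A : Adapted n s p ρ e w0 R I) {w : Cn n} (hw : w ∈ ball w0 R) :
    A.L.V w = SV s p e (e.symm w) := by
  rw [A.L.V_eq_tsum hw]
  unfold SV
  rw [← ((Equiv.refl κ).prodCongr (A.B.fiberEquiv hw)).tsum_eq]
  apply tsum_congr
  rintro ⟨k, i⟩
  rw [A.g_eq]
  rfl

omit [IsManifold 𝓘(ℂ, Cn n) ω X] [IsManifold 𝓘(ℂ, Cn n) ω D] in
lemma r_eq (A : Adapted n s p ρ e w0 R I) {w : Cn n} (hw : w ∈ ball w0 R) (q : κ × I) :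
    A.L.r q w = ratio s p e q.1 (A.B.br q.2 w) := by
  unfold LocalData.r ratio
  rw [A.V_eq hw, A.g_eq, A.B.proj q.2 w hw]

lemma ψ_eq (A : Adapted n s p ρ e w0 R I) (hp : IsLocalDiffeomorph 𝓘(ℂ, Cn n) 𝓘(ℂ, Cn n) ω p)
    (he : e ∈ atlas (Cn n) X) {δ : ℝ} {w : Cn n} (hw : w ∈ ball w0 R) :
    A.L.ψ δ w = ψg s p ρ δ (e.symm w) := by
  rw [ψg_eq hp he (e.map_target (A.B.sub hw))]
  unfold LocalData.ψ
  rw [← ((Equiv.refl κ).prodCongr (A.B.fiberEquiv hw)).tsum_eq]
  apply tsum_congr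
  rintro ⟨k, i⟩
  rw [A.r_eq hw, A.ρ_eq]
  rfl

end Adapted

/-- From local to uniform positivity on a compact space. -/
lemma compact_uniform {X : Type*} [TopologicalSpace X] [CompactSpace X] {P : ℝ → X → Prop}
    (mono : ∀ c c' x, c ≤ c' → P c' x → P c x)
    (h : ∀ x0, ∃ c : ℝ, 0 < c ∧ ∀ᶠ x in 𝓝 x0, P c x) : ∃ c : ℝ, 0 < c ∧ ∀ x, P c x := by
  choose c hc hev using h
  obtain ⟨t, ht⟩ := CompactSpace.elim_nhds_subcover (fun x0 => {x | P (c x0) x}) hev
  rcases t.eq_empty_or_nonempty with he | hne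
  · refine ⟨1, one_pos, fun x => ?_⟩
    have : x ∈ (⊤ : Set X) := trivial
    rw [← ht, he] at this
    simp at this
  · refine ⟨t.inf' hne c, (Finset.lt_inf'_iff hne).mpr fun i _ => hc i, fun x => ?_⟩
    have : x ∈ (⊤ : Set X) := trivial
    rw [← ht] at this
    simp only [mem_iUnion, mem_setOf_eq] at this
    obtain ⟨i, hi, hPi⟩ := this
    exact mono _ _ _ (Finset.inf'_le c hi) hPi

section final
variable [Finite κ] {ρ : D → ℝ}

lemma eventually_chart {e : OpenPartialHomeomorph X (Cn n)} {x0 : X} (hx0 : x0 ∈ e.source)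
    {Q : Cn n → Prop} (hQ : ∀ᶠ w in 𝓝 (e x0), Q w) : ∀ᶠ x in 𝓝 x0, Q (e x) :=
  (e.continuousAt hx0).eventually hQ

lemma exists_delta [CompactSpace X] (hp : HolCovering n p) (hρ : StrictlyPSH n ρ)
    (hL2 : ∀ k, SquareIntegrable (s k) p)
    (hpos : ∀ x : X, ∃ k, ∃ z : D, p z = x ∧
      (s k).coeff (chartAt (Cn n) z) (chartAt (Cn n) z z) ≠ 0) :
    ∃ δ : ℝ, 0 < δ ∧ ∀ x : X, ∀ e ∈ atlas (Cn n) X, x ∈ e.source →
      ∃ k, ∃ z : D, p z = x ∧ δ < ratio s p e k z := by
  apply compact_uniform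
  · intro c c' x hcc h e he hx
    obtain ⟨k, z, hz, hlt⟩ := h e he hx
    exact ⟨k, z, hz, lt_of_le_of_lt hcc hlt⟩
  intro x0
  set e := chartAt (Cn n) x0 with he0
  have he : e ∈ atlas (Cn n) X := chart_mem_atlas _ _
  have hx0 : x0 ∈ e.source := mem_chart_source _ _
  obtain ⟨R, hR, ⟨A⟩⟩ := exists_adapted hp hρ hL2 hpos he hx0
  have hc : e x0 ∈ ball (e x0) R := mem_ball_self hR
  obtain ⟨q, hq⟩ : ∃ q, A.L.g q (e x0) ≠ 0 := by
    by_contra hcon
    push_neg at hcon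
    apply A.L.ne (e x0) hc
    apply lp.ext
    funext q
    have h1 := A.L.coord (e x0) hc q
    rw [hcon q] at h1
    exact h1
  have hrpos : 0 < A.L.r q (e x0) := by
    unfold LocalData.r
    have := A.L.V_pos hc
    have h2 : 0 < ‖A.L.g q (e x0)‖ := norm_pos_iff.mpr hq
    positivity
  refine ⟨A.L.r q (e x0) / 2, by linarith, ?_⟩
  have h1 : ∀ᶠ w in 𝓝 (e x0), A.L.r q (e x0) / 2 < A.L.r q w :=
    (A.L.r_smoothAt hc q).continuousAt.eventually (lt_mem_nhds (by linarith))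
  have h2 : ∀ᶠ w in 𝓝 (e x0), w ∈ ball (e x0) R := isOpen_ball.mem_nhds hc
  filter_upwards [eventually_chart hx0 h1, eventually_chart hx0 h2,
    e.open_source.mem_nhds hx0] with x a1 a2 a3 e' he' hx'
  have hpx : p (A.B.br q.2 (e x)) = x := by
    rw [A.B.proj q.2 _ a2, e.left_inv a3]
  refine ⟨q.1, A.B.br q.2 (e x), hpx, ?_⟩
  rw [A.r_eq a2] at a1
  rw [ratio_change hp.localBihol he' he (by rw [hpx]; exact ⟨hx', a3⟩)]
  exact a1

end final

end

end Vale.Agent.P272
end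
end
end

section

section

open scoped Manifold ContDiff Topology
open MeasureTheory Set Filter Metric

noncomputable section

namespace Vale.Agent.P272

variable {n m : ℕ} {D X : Type*} [TopologicalSpace D] [ChartedSpace (Cn n) D]
  [TopologicalSpace X] [ChartedSpace (Cn n) X]

/-- the local weights of the metric -/
def wt {κ : Type*} (s : κ → PluriForm n m D) (p : D → X) (ρ : D → ℝ) (δ ε : ℝ)
    (e : OpenPartialHomeomorph X (Cn n)) (w : Cn n) : ℝ :=
  (1 / (m : ℝ)) * Real.log (SV s p e (e.symm w)) + ε * ψg s p ρ δ (e.symm w)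

section
variable [IsManifold 𝓘(ℂ, Cn n) ω X] [IsManifold 𝓘(ℂ, Cn n) ω D] {p : D → X}
  {κ : Type*} {s : κ → PluriForm n m D} [Finite κ] {ρ : D → ℝ}

lemma Adapted.wt_eq {e : OpenPartialHomeomorph X (Cn n)} {w0 : Cn n} {R : ℝ} {I : Type*}
    (A : Adapted n s p ρ e w0 R I) (hp : IsLocalDiffeomorph 𝓘(ℂ, Cn n) 𝓘(ℂ, Cn n) ω p)
    (he : e ∈ atlas (Cn n) X) {δ ε : ℝ} {w : Cn n} (hw : w ∈ ball w0 R) :
    wt s p ρ δ ε e w = (1 / (m : ℝ)) * Real.log (A.L.V w) + ε * A.L.ψ δ w := by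
  unfold wt
  rw [A.V_eq hw, A.ψ_eq hp he hw]

lemma Adapted.wt_smooth {e : OpenPartialHomeomorph X (Cn n)} {w0 : Cn n} {R : ℝ} {I : Type*}
    (A : Adapted n s p ρ e w0 R I) (hp : IsLocalDiffeomorph 𝓘(ℂ, Cn n) 𝓘(ℂ, Cn n) ω p)
    (he : e ∈ atlas (Cn n) X) {δ ε : ℝ} (hδ : 0 < δ) {w : Cn n} (hw : w ∈ ball w0 R) :
    ContDiffAt ℝ ∞ (wt s p ρ δ ε e) w := by
  have h1 : wt s p ρ δ ε e =ᶠ[𝓝 w]
      fun w => (1 / (m : ℝ)) * Real.log (A.L.V w) + ε * A.L.ψ δ w := by
    filter_upwards [isOpen_ball.mem_nhds hw] with w' hw'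
    exact A.wt_eq hp he hw'
  refine ContDiffAt.congr_of_eventuallyEq ?_ h1
  exact (contDiffAt_const.mul (A.L.logV_smoothAt hw)).add
    (contDiffAt_const.mul (A.L.ψ_smoothAt hδ hw))

variable (hm : 1 ≤ m) (hp : HolCovering n p) (hρ : StrictlyPSH n ρ)
  (hL2 : ∀ k, SquareIntegrable (s k) p)
  (hpos : ∀ x : X, ∃ k, ∃ z : D, p z = x ∧
    (s k).coeff (chartAt (Cn n) z) (chartAt (Cn n) z z) ≠ 0)

include hp hρ hL2 hpos in
lemma wt_contDiffAt {δ : ℝ} (hδ : 0 < δ) (ε : ℝ) {e : OpenPartialHomeomorph X (Cn n)}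
    (he : e ∈ atlas (Cn n) X) {x : X} (hx : x ∈ e.source) :
    ContDiffAt ℝ ∞ (wt s p ρ δ ε e) (e x) := by
  obtain ⟨R, hR, ⟨A⟩⟩ := exists_adapted hp hρ hL2 hpos he hx
  exact A.wt_smooth hp.localBihol he hδ (mem_ball_self hR)

include hp hρ hL2 hpos in
lemma SV_pos {e : OpenPartialHomeomorph X (Cn n)}
    (he : e ∈ atlas (Cn n) X) {x : X} (hx : x ∈ e.source) : 0 < SV s p e x := by
  obtain ⟨R, hR, ⟨A⟩⟩ := exists_adapted hp hρ hL2 hpos he hx
  have := A.L.V_pos (mem_ball_self hR)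
  rwa [A.V_eq (mem_ball_self hR), e.left_inv hx] at this

include hm hp hρ hL2 hpos in
lemma wt_change (δ ε : ℝ) {e e' : OpenPartialHomeomorph X (Cn n)} (he : e ∈ atlas (Cn n) X)
    (he' : e' ∈ atlas (Cn n) X) {x : X} (hx : x ∈ e.source ∩ e'.source) :
    wt s p ρ δ ε e (e x) = wt s p ρ δ ε e' (e' x) +
      Real.log (‖jac (e' ∘ e.symm) (e x)‖ ^ 2) := by
  unfold wt
  rw [e.left_inv hx.1, e'.left_inv hx.2, SV_change hp.localBihol he he' hx]
  have h1 := SV_pos hp hρ hL2 hpos he' hx.2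
  have h2 := transition_jac_ne_zero he he' hx
  have h3 : 0 < ‖jac (e' ∘ e.symm) (e x)‖ ^ 2 := by
    have := norm_pos_iff.mpr h2
    positivity
  rw [Real.log_mul h1.ne' (pow_ne_zero m h3.ne'), Real.log_pow]
  have hm' : (m : ℝ) ≠ 0 := by
    have : (0 : ℝ) < m := by exact_mod_cast hm
    exact this.ne'
  field_simp
  ring

include hm hp hρ hL2 hpos in
/-- positivity of the Levi form does not depend on the chart -/
lemma levi_wt_transfer {δ : ℝ} (hδ : 0 < δ) (ε : ℝ) {e e' : OpenPartialHomeomorph X (Cn n)}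
    (he : e ∈ atlas (Cn n) X) (he' : e' ∈ atlas (Cn n) X) {x : X}
    (hx : x ∈ e.source ∩ e'.source)
    (h : ∀ ξ : Cn n, ξ ≠ 0 → 0 < levi (wt s p ρ δ ε e') (e' x) ξ) {ξ : Cn n} (hξ : ξ ≠ 0) :
    0 < levi (wt s p ρ δ ε e) (e x) ξ := by
  set T : Cn n → Cn n := e' ∘ e.symm with hT
  have hTx : T (e x) = e' x := by simp [hT, e.left_inv hx.1]
  have hTan : ContDiffAt ℂ ω T (e x) := transition_contDiffAt he he' hx
  have hev : wt s p ρ δ ε e =ᶠ[𝓝 (e x)]
      fun w => wt s p ρ δ ε e' (T w) + Real.log (‖jac T w‖ ^ 2) := by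
    have c1 : ∀ᶠ w in 𝓝 (e x), w ∈ e.target := e.open_target.mem_nhds (e.map_source hx.1)
    have c2 : ∀ᶠ w in 𝓝 (e x), e.symm w ∈ e'.source :=
      (e.continuousAt_symm (e.map_source hx.1)).eventually
        (e'.open_source.mem_nhds (by rw [e.left_inv hx.1]; exact hx.2))
    filter_upwards [c1, c2] with w hw hw'
    have := wt_change hm hp hρ hL2 hpos δ ε he he' (x := e.symm w) ⟨e.map_target hw, hw'⟩
    rw [e.right_inv hw] at this
    exact this
  have hHT := holAt_of_contDiffAt hTan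
  have hHJ := holAt_of_contDiffAt (contDiffAt_jac hTan)
  have hJ0 : jac T (e x) ≠ 0 := transition_jac_ne_zero he he' hx
  have hw' : ContDiffAt ℝ 2 (wt s p ρ δ ε e') (T (e x)) := by
    rw [hTx]
    exact (wt_contDiffAt hp hρ hL2 hpos hδ ε he' hx.2).of_le two_le_infty
  have hcomp : ContDiffAt ℝ 2 (fun w => wt s p ρ δ ε e' (T w)) (e x) :=
    hw'.comp (e x) hHT.smooth
  rw [levi_congr hev, levi_add hcomp (contDiffAt_log_norm_sq hHJ hJ0), levi_log_scalar hHJ hJ0,
    add_zero, levi_comp_holo (f := wt s p ρ δ ε e') (T := T) hw' hHT.smooth hHT.cr, hTx]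
  apply h
  intro h0
  apply hξ
  have hS : DifferentiableAt ℝ (e ∘ e'.symm) (T (e x)) := by
    rw [hTx]
    exact ((transition_contDiffAt he' he ⟨hx.2, hx.1⟩).differentiableAt (by simp)).restrictScalars ℝ
  have hT1 : DifferentiableAt ℝ T (e x) := (hTan.differentiableAt (by simp)).restrictScalars ℝ
  have hch := hS.hasFDerivAt.comp (e x) hT1.hasFDerivAt
  have hid : HasFDerivAt ((e ∘ e'.symm) ∘ T) (ContinuousLinearMap.id ℝ (Cn n)) (e x) :=
    (hasFDerivAt_id (e x)).congr_of_eventuallyEq (transition_inv hx)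
  have huniq := hch.unique hid
  have := congrArg (fun A => A ξ) huniq
  simp only [ContinuousLinearMap.comp_apply, ContinuousLinearMap.id_apply] at this
  rw [h0, map_zero] at this
  exact this.symm

include hm hp hρ hL2 hpos in
theorem main_finite [CompactSpace X] : CanonicalPositive n X := by
  obtain ⟨δ, hδ, hr⟩ := exists_delta hp hρ hL2 hpos
  obtain ⟨ε, hε, hpsh⟩ : ∃ ε : ℝ, 0 < ε ∧ ∀ x : X, ∀ ε' : ℝ, 0 < ε' → ε' ≤ ε →
      ∀ e ∈ atlas (Cn n) X, x ∈ e.source → ∀ ξ : Cn n, ξ ≠ 0 →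
        0 < levi (wt s p ρ δ ε' e) (e x) ξ := by
    apply compact_uniform (P := fun ε x => ∀ ε' : ℝ, 0 < ε' → ε' ≤ ε →
      ∀ e ∈ atlas (Cn n) X, x ∈ e.source → ∀ ξ : Cn n, ξ ≠ 0 →
        0 < levi (wt s p ρ δ ε' e) (e x) ξ)
    · intro c c' x hcc h ε' h0 h1
      exact h ε' h0 (h1.trans hcc)
    intro x0
    set e := chartAt (Cn n) x0 with he0
    have he : e ∈ atlas (Cn n) X := chart_mem_atlas _ _
    have hx0 : x0 ∈ e.source := mem_chart_source _ _
    obtain ⟨R, hR, ⟨A⟩⟩ := exists_adapted hp hρ hL2 hpos he hx0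
    have hrA : ∀ w ∈ ball (e x0) R, ∃ q, δ < A.L.r q w := by
      intro w hw
      have hwt := A.B.sub hw
      obtain ⟨k, z, hz, hlt⟩ := hr (e.symm w) e he (e.map_target hwt)
      obtain ⟨i, hi, _⟩ := A.B.bij w hw z hz
      refine ⟨(k, i), ?_⟩
      rw [A.r_eq hw]
      simp only
      rw [hi]
      exact hlt
    have hmpos : (0 : ℝ) < 1 / (m : ℝ) := by
      have : (0 : ℝ) < m := by exact_mod_cast hm
      positivity
    obtain ⟨ε0, hε0, H⟩ := A.L.exists_eps hδ hrA hmpos (R' := R / 2) (by linarith)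
    refine ⟨ε0, hε0, ?_⟩
    have h2 : ∀ᶠ w in 𝓝 (e x0), w ∈ ball (e x0) (R / 2) :=
      isOpen_ball.mem_nhds (mem_ball_self (by linarith))
    filter_upwards [eventually_chart hx0 h2, e.open_source.mem_nhds hx0] with x a2 a3
    intro ε' h0 h1 e' he' hx' ξ hξ
    refine levi_wt_transfer hm hp hρ hL2 hpos hδ ε' he' he ⟨hx', a3⟩ ?_ hξ
    intro η hη
    have hball : e x ∈ ball (e x0) R := ball_subset_ball (by linarith) a2
    have hev : wt s p ρ δ ε' e =ᶠ[𝓝 (e x)]
        fun w => (1 / (m : ℝ)) * Real.log (A.L.V w) + ε' * A.L.ψ δ w := by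
      filter_upwards [isOpen_ball.mem_nhds hball] with w' hw'
      exact A.wt_eq hp.localBihol he hw'
    rw [levi_congr hev]
    exact H ε' h0 h1 (e x) (ball_subset_closedBall a2) η hη
  refine ⟨wt s p ρ δ ε, ?_, ?_, ?_⟩
  · intro e he w hw
    have h1 := wt_contDiffAt hp hρ hL2 hpos hδ ε he (e.map_target hw)
    rw [e.right_inv hw] at h1
    exact h1.contDiffWithinAt
  · intro e he e' he' x hx
    exact wt_change hm hp hρ hL2 hpos δ ε he he' hx
  · intro e he w hw ξ hξ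
    have := hpsh (e.symm w) ε hε le_rfl e he (e.map_target hw) ξ hξ
    rwa [e.right_inv hw] at this

end

section
variable [IsManifold 𝓘(ℂ, Cn n) ω X] [IsManifold 𝓘(ℂ, Cn n) ω D] [CompactSpace X]

/-- Main theorem. -/
theorem main (hm : 1 ≤ m) (p : D → X) (hp : HolCovering n p) (ρ : D → ℝ)
    (hρ : StrictlyPSH n ρ)
    (hgen : ∀ x : X, ∃ z : D, p z = x ∧ ∃ s : PluriForm n m D, SquareIntegrable s p ∧
      s.coeff (chartAt (Cn n) z) (chartAt (Cn n) z z) ≠ 0) :
    CanonicalPositive n X := by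
  choose z hz s hs hne using hgen
  -- nonvanishing near each point
  have hopen : ∀ x0 : X, ∀ᶠ x in 𝓝 x0, ∃ y : D, p y = x ∧
      (s x0).coeff (chartAt (Cn n) y) (chartAt (Cn n) y y) ≠ 0 := by
    intro x0
    set e := chartAt (Cn n) x0 with he0
    have he : e ∈ atlas (Cn n) X := chart_mem_atlas _ _
    have hx0 : x0 ∈ e.source := mem_chart_source _ _
    obtain ⟨R, hR, ⟨B⟩⟩ := exists_branches (n := n) hp.covering hx0
    have hc : e x0 ∈ ball (e x0) R := mem_ball_self hR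
    obtain ⟨i, hi, _⟩ := B.bij (e x0) hc (z x0) (by rw [e.left_inv hx0]; exact hz x0)
    have h1 : liftCoeff (s x0) p e (B.br i (e x0)) ≠ 0 := by
      rw [hi]
      exact liftCoeff_ne_zero hp.localBihol (hne x0) he (by rw [hz x0]; exact hx0)
    have h2 : ContinuousAt (fun w => liftCoeff (s x0) p e (B.br i w)) (e x0) :=
      ((B.holo hp.localBihol he (s x0) i).differentiableAt
        (isOpen_ball.mem_nhds hc)).continuousAt
    have h3 : ∀ᶠ w in 𝓝 (e x0), liftCoeff (s x0) p e (B.br i w) ≠ 0 := h2.eventually_ne h1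
    have h4 : ∀ᶠ w in 𝓝 (e x0), w ∈ ball (e x0) R := isOpen_ball.mem_nhds hc
    filter_upwards [eventually_chart hx0 h3, eventually_chart hx0 h4,
      e.open_source.mem_nhds hx0] with x a1 a2 a3
    refine ⟨B.br i (e x), ?_, coeff_ne_zero _ p a1⟩
    rw [B.proj i _ a2, e.left_inv a3]
  obtain ⟨t, ht⟩ := CompactSpace.elim_nhds_subcover _ hopen
  refine main_finite (κ := t) (s := fun k => s k.1) hm hp hρ (fun k => hs k.1) ?_
  intro x
  have : x ∈ (⊤ : Set X) := trivial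
  rw [← ht] at this
  simp only [mem_iUnion] at this
  obtain ⟨x0, hx0, y, hy, hne'⟩ := this
  exact ⟨⟨x0, hx0⟩, y, hy, hne'⟩

end

end Vale.Agent.P272
end
end
end

section

section

open scoped Manifold ContDiff Topology
open MeasureTheory Set TopologicalSpace

noncomputable section

namespace Vale.Agent.P272

variable {n : ℕ}

end Vale.Agent.P272
end
end
end

section

section

open scoped Manifold ContDiff Topology
open MeasureTheory Set TopologicalSpace

noncomputable section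

namespace Vale.Agent.P272

variable {n m : ℕ}

section branch

variable {D X : Type*} [TopologicalSpace D] [ChartedSpace (Cn n) D]
  [IsManifold 𝓘(ℂ, Cn n) ω D] [TopologicalSpace X] [ChartedSpace (Cn n) X]
  [IsManifold 𝓘(ℂ, Cn n) ω X]

end branch

section sqint

variable {X : Type*} [TopologicalSpace X] [ChartedSpace (Cn n) X] [IsManifold 𝓘(ℂ, Cn n) ω X]

end sqint

end Vale.Agent.P272
end
end
end

section

section

open scoped Manifold ContDiff Topology Laplacian
open MeasureTheory Set WithLp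

noncomputable section

namespace Vale.Agent.P272

variable {n : ℕ}

lemma hasDerivAt_toLp_update (z : Cn n) (j : Fin n) :
    HasDerivAt (fun ζ : ℂ => (toLp 2 (Function.update z j ζ) : Cn n))
      (EuclideanSpace.single j 1) (z j) := by
  have h1 : HasDerivAt (fun ζ : ℂ => Function.update (ofLp z) j ζ) (Pi.single j (1 : ℂ)) (z j) :=
    hasDerivAt_update _ _ _
  have h2 := (PiLp.continuousLinearEquiv 2 ℂ (fun _ : Fin n => ℂ)).symm.hasFDerivAt
    (x := Function.update (ofLp z) j (z j))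
  exact h2.comp_hasDerivAt (z j) h1

lemma stmt_jac {f : Cn n → Cn n} {z : Cn n} (hf : DifferentiableAt ℂ f z) :
    Stmt.jac f z = jac f z := by
  rw [jac, clm_det_eq, Stmt.jac]
  congr 1
  ext i j
  have h1 : HasDerivAt (fun ζ : ℂ => f (toLp 2 (Function.update z j ζ)))
      (fderiv ℂ f z (EuclideanSpace.single j 1)) (z j) := by
    refine HasFDerivAt.comp_hasDerivAt (z j) ?_ (hasDerivAt_toLp_update z j)
    simpa using hf.hasFDerivAt
  have h2 : HasDerivAt (fun ζ : ℂ => f (toLp 2 (Function.update z j ζ)) i)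
      (fderiv ℂ f z (EuclideanSpace.single j 1) i) (z j) := by
    have h3 := (EuclideanSpace.proj (𝕜 := ℂ) (ι := Fin n) i).hasFDerivAt
      (x := f (toLp 2 (Function.update z j (z j))))
    exact h3.comp_hasDerivAt (z j) h1
  rw [h2.deriv]
  simp

lemma stmt_levi {f : Cn n → ℝ} {z : Cn n} (hf : ContDiffAt ℝ 2 f z) (ξ : Fin n → ℂ) :
    Δ (fun ζ : ℂ => f (toLp 2 fun j => z j + ζ * ξ j)) 0 = levi f z (toLp 2 ξ) := by
  have e1 : (fun ζ : ℂ => f (toLp 2 fun j => z j + ζ * ξ j)) =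
      fun ζ : ℂ => f (z + ζ • (toLp 2 ξ : Cn n)) := by
    ext ζ
    congr 1
  have hT : ∀ ζ : ℂ, HasFDerivAt (fun ζ : ℂ => z + ζ • (toLp 2 ξ : Cn n))
      ((ContinuousLinearMap.id ℝ ℂ).smulRight (toLp 2 ξ : Cn n)) ζ := by
    intro ζ
    have := (((ContinuousLinearMap.id ℝ ℂ).smulRight (toLp 2 ξ : Cn n)).hasFDerivAt
      (x := ζ)).const_add z
    exact this
  have hT' : fderiv ℝ (fun ζ : ℂ => z + ζ • (toLp 2 ξ : Cn n)) =
      fun _ => (ContinuousLinearMap.id ℝ ℂ).smulRight (toLp 2 ξ : Cn n) := by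
    ext1 ζ
    exact (hT ζ).fderiv
  have hTs : ContDiffAt ℝ 2 (fun ζ : ℂ => z + ζ • (toLp 2 ξ : Cn n)) 0 := by
    fun_prop
  have hf' : ContDiffAt ℝ 2 f (z + (0 : ℂ) • (toLp 2 ξ : Cn n)) := by simpa using hf
  rw [e1, InnerProductSpace.laplacian_eq_iteratedFDeriv_complexPlane]
  simp only [iteratedFDeriv_two_apply]
  rw [levi]
  simp only [Matrix.cons_val_zero, Matrix.cons_val_one]
  rw [dd_comp (T := fun ζ : ℂ => z + ζ • (toLp 2 ξ : Cn n)) hf' hTs,
    dd_comp (T := fun ζ : ℂ => z + ζ • (toLp 2 ξ : Cn n)) hf' hTs, hT']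
  simp

lemma stmt_spsh {f : Cn n → ℝ} {z : Cn n} : Stmt.StrictlyPSHAt f z ↔
    ContDiffAt ℝ ∞ f z ∧ ∀ ξ : Cn n, ξ ≠ 0 → 0 < levi f z ξ := by
  unfold Stmt.StrictlyPSHAt
  refine and_congr_right fun hf => ?_
  have hf2 : ContDiffAt ℝ 2 f z := hf.of_le (WithTop.coe_le_coe.mpr le_top)
  constructor
  · intro h ξ hξ
    have := h (ofLp ξ) (by
      intro h0
      apply hξ
      ext i
      simpa using congrFun h0 i)
    rwa [stmt_levi hf2] at this
  · intro h ξ hξ
    rw [stmt_levi hf2]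
    apply h
    intro h0
    apply hξ
    ext i
    simpa using congrArg (fun v : Cn n => v i) h0

section measure

/-- The volume of `Cn n` is a finite multiple of the image of the volume of `Fin n → ℂ`. -/
lemma exists_volume_eq (n : ℕ) : ∃ c : ENNReal, c ≠ ⊤ ∧
    (volume : Measure (Cn n)) = c • (volume : Measure (Fin n → ℂ)).map (toLp 2) := by
  let L := (PiLp.continuousLinearEquiv 2 ℂ (fun _ : Fin n => ℂ)).symm
  have hL : ((volume : Measure (Fin n → ℂ)).map (toLp 2)).IsAddHaarMeasure :=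
    L.toContinuousAddEquiv.isAddHaarMeasure_map (volume : Measure (Fin n → ℂ))
  refine ⟨_, ?_, Measure.isAddLeftInvariant_eq_smul (volume : Measure (Cn n))
    ((volume : Measure (Fin n → ℂ)).map (toLp 2))⟩
  exact ENNReal.coe_ne_top

end measure

section

variable {m : ℕ} {D X : Type*} [TopologicalSpace D] [ChartedSpace (Cn n) D]
  [TopologicalSpace X] [ChartedSpace (Cn n) X]

lemma stmt_cjac [IsManifold 𝓘(ℂ, Cn n) ω X] {e e' : OpenPartialHomeomorph X (Cn n)}
    (he : e ∈ atlas (Cn n) X) (he' : e' ∈ atlas (Cn n) X) {x : X}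
    (hx : x ∈ e.source ∩ e'.source) : Stmt.cjac e e' x = jac (e' ∘ e.symm) (e x) :=
  stmt_jac ((transition_contDiffAt he he' hx).differentiableAt (by simp))

def ofStmt [IsManifold 𝓘(ℂ, Cn n) ω D] (s : Stmt.PluriForm n m D) : PluriForm n m D where
  coeff := s.coeff
  holo := by
    intro e he w hw
    have := s.holo e (e.symm w) ⟨he, e.map_target hw⟩
    have h2 : e (e.symm w) = w := e.right_inv hw
    change AnalyticAt ℂ (s.coeff e) (e (e.symm w)) at this
    rw [h2] at this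
    exact this.differentiableAt.differentiableWithinAt
  change := by
    intro e he e' he' x hx
    rw [← stmt_cjac he he' hx]
    exact s.change e e' x ⟨he, hx.1⟩ ⟨he', hx.2⟩

lemma stmt_spsh_fun {ρ : D → ℝ} (h : Stmt.StrictlyPSH n ρ) : StrictlyPSH n ρ := by
  intro e he
  have key : ∀ z ∈ e.target, ContDiffAt ℝ ∞ (ρ ∘ e.symm) z ∧
      ∀ ξ : Cn n, ξ ≠ 0 → 0 < levi (ρ ∘ e.symm) z ξ := by
    intro z hz
    have h1 := h e (e.symm z) ⟨he, e.map_target hz⟩
    rw [stmt_spsh] at h1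
    have h2 : e (e.symm z) = z := e.right_inv hz
    change ContDiffAt ℝ ∞ (ρ ∘ e.symm) (e (e.symm z)) ∧
      ∀ ξ : Cn n, ξ ≠ 0 → 0 < levi (ρ ∘ e.symm) (e (e.symm z)) ξ at h1
    rwa [h2] at h1
  exact ⟨fun z hz => (key z hz).1.contDiffWithinAt, fun z hz => (key z hz).2⟩

lemma stmt_liftCoeff [IsManifold 𝓘(ℂ, Cn n) ω D] [IsManifold 𝓘(ℂ, Cn n) ω X] {p : D → X}
    (hp : IsLocalDiffeomorph 𝓘(ℂ, Cn n) 𝓘(ℂ, Cn n) ω p) (s : Stmt.PluriForm n m D)
    {e : OpenPartialHomeomorph X (Cn n)} (he : e ∈ atlas (Cn n) X) {z : D}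
    (hz : p z ∈ e.source) : Stmt.liftCoeff s p e z = liftCoeff (ofStmt s) p e z := by
  unfold Stmt.liftCoeff liftCoeff
  have := localMap_contDiffAt (hp.contMDiff z) he (chart_mem_atlas (Cn n) z)
    (mem_chart_source (Cn n) z) hz
  have h2 := stmt_jac (this.differentiableAt (by simp))
  rw [← h2]
  rfl

lemma stmt_squareIntegrable [IsManifold 𝓘(ℂ, Cn n) ω D] [IsManifold 𝓘(ℂ, Cn n) ω X] {p : D → X}
    (hp : IsLocalDiffeomorph 𝓘(ℂ, Cn n) 𝓘(ℂ, Cn n) ω p) {s : Stmt.PluriForm n m D}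
    (hs : Stmt.SquareIntegrable s p) : SquareIntegrable (ofStmt s) p := by
  intro e he K hK hKc
  refine hKc.induction_on (p := fun s' => ∫⁻ w in s', ∑' z : p ⁻¹' {e.symm w},
    ‖liftCoeff (ofStmt s) p e z‖ₑ ^ 2 < ⊤) (by simp) ?_ ?_ ?_
  · intro s t hst ht
    exact (lintegral_mono_set hst).trans_lt ht
  · intro s t hs ht
    exact (lintegral_union_le _ s t).trans_lt (ENNReal.add_lt_top.mpr ⟨hs, ht⟩)
  · intro w0 hw0
    have hw0t := hK hw0
    obtain ⟨W, hW, hint⟩ := hs e (e.symm w0) ⟨he, e.map_target hw0t⟩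
    have h2 : e (e.symm w0) = w0 := e.right_inv hw0t
    change W ∈ 𝓝 (ofLp (e (e.symm w0))) at hW
    rw [h2] at hW
    set F : Cn n → ENNReal := fun w => ∑' z : p ⁻¹' {e.symm w},
      ‖liftCoeff (ofStmt s) p e z‖ₑ ^ 2 with hF
    have hWn : (ofLp ⁻¹' W : Set (Cn n)) ∩ e.target ∈ 𝓝 w0 := by
      refine Filter.inter_mem ?_ (e.open_target.mem_nhds hw0t)
      have hc : Continuous (ofLp : Cn n → Fin n → ℂ) := PiLp.continuous_ofLp 2 _
      exact hc.continuousAt.preimage_mem_nhds hW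
    obtain ⟨U, hU, hUo, hwU⟩ := mem_nhds_iff.mp hWn
    refine ⟨U, mem_nhdsWithin_of_mem_nhds (hUo.mem_nhds hwU), ?_⟩
    obtain ⟨c, hc, hvol⟩ := exists_volume_eq n
    have hmeas : Measurable (toLp 2 : (Fin n → ℂ) → Cn n) :=
      (PiLp.continuous_toLp 2 _).measurable
    have hemb : MeasurableEmbedding (toLp 2 : (Fin n → ℂ) → Cn n) :=
      (PiLp.continuousLinearEquiv 2 ℂ (fun _ : Fin n => ℂ)).symm.toHomeomorph.measurableEmbedding
    rw [hvol, Measure.restrict_smul, lintegral_smul_measure, hemb.restrict_map,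
      hemb.lintegral_map]
    refine ENNReal.mul_lt_top hc.lt_top (lt_of_le_of_lt ?_ hint)
    have hsub : (toLp 2 ⁻¹' U : Set (Fin n → ℂ)) ⊆ W := fun w hw => (hU hw).1
    refine le_trans (le_of_eq ?_) (lintegral_mono_set hsub)
    refine setLIntegral_congr_fun (hUo.measurableSet.preimage hmeas) ?_
    intro w hw
    have hwt : (toLp 2 w : Cn n) ∈ e.target := (hU hw).2
    change _ = ∑' z : D, (p ⁻¹' {e.symm (toLp 2 w)}).indicator
      (fun z => ‖Stmt.liftCoeff s p e z‖ₑ ^ 2) z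
    rw [← tsum_subtype (p ⁻¹' {e.symm (toLp 2 w)}) (fun z => ‖Stmt.liftCoeff s p e z‖ₑ ^ 2)]
    refine tsum_congr fun z => ?_
    have hz : p z ∈ e.source := by
      have hz0 : p z = e.symm (toLp 2 w) := z.2
      rw [hz0]
      exact e.map_target hwt
    rw [← stmt_liftCoeff hp s he hz]

lemma stmt_canonicalPositive [IsManifold 𝓘(ℂ, Cn n) ω X] (h : CanonicalPositive n X) :
    Stmt.CanonicalPositive n X := by
  obtain ⟨φ, h1, h2, h3⟩ := h
  refine ⟨φ, ?_, ?_⟩
  · rintro e x ⟨he, hx⟩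
    rw [stmt_spsh]
    exact ⟨(h1 e he).contDiffAt (e.open_target.mem_nhds (e.map_source hx)),
      h3 e he (e x) (e.map_source hx)⟩
  · rintro e e' x ⟨he, hx⟩ ⟨he', hx'⟩
    rw [stmt_cjac he he' ⟨hx, hx'⟩]
    exact h2 e he e' he' x ⟨hx, hx'⟩

lemma stmt_holCovering {p : D → X} (h : Stmt.HolCovering n p) : HolCovering n p :=
  ⟨h.covering, h.surjective, h.localBihol⟩

end

theorem stmt_main {n m : ℕ} (hm : 1 ≤ m)
    {X D : Type*} [TopologicalSpace X] [CompactSpace X] [ChartedSpace (Cn n) X] [Stmt.IsCplx n X]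
    [TopologicalSpace D] [ChartedSpace (Cn n) D] [Stmt.IsCplx n D]
    (p : D → X) (hp : Stmt.HolCovering n p)
    (ρ : D → ℝ) (hρ : Stmt.StrictlyPSH n ρ)
    (hgen : ∀ x : X, ∃ z : D, p z = x ∧ ∃ s : Stmt.PluriForm n m D, Stmt.SquareIntegrable s p ∧
      s.val z ≠ 0) :
    Stmt.CanonicalPositive n X := by
  have : IsManifold 𝓘(ℂ, Cn n) ω X := Stmt.IsCplx.holo
  have : IsManifold 𝓘(ℂ, Cn n) ω D := Stmt.IsCplx.holo
  apply stmt_canonicalPositive
  refine main hm p (stmt_holCovering hp) ρ (stmt_spsh_fun hρ) ?_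
  intro x
  obtain ⟨z, hz, s, hs, hne⟩ := hgen x
  exact ⟨z, hz, ofStmt s, stmt_squareIntegrable hp.localBihol hs, hne⟩

end Vale.Agent.P272
end
end
end
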